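import Vale.Agent.P101.Defs

/-!
# P101: common tools

The algebra generated by a block of slots, the calculus of fullness bounds, and uniformisation of
fullness bounds through bounded products.
-/

noncomputable section

namespace Vale.Agent.P101

universe u

open scoped ENNReal

section Basics

variable {A : Type u} [CStarAlgebra A] {ι : Type*} {N : ℕ}

theorem StarCommute.symm {a b : A} (h : StarCommute a b) : StarCommute b a :=
  ⟨h.1.symm, by simpa [star_star] using h.2.symm.star_star⟩

/-- `gen X T` is closed. -/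
theorem isClosed_gen (X : ι → Fin N → A) (T : Set ι) : IsClosed (gen X T : Set A) :=
  StarSubalgebra.isClosed_topologicalClosure _

instance instIsClosedGen (X : ι → Fin N → A) (T : Set ι) : IsClosed (gen X T : Set A) :=
  isClosed_gen X T

theorem slot_mem_gen {X : ι → Fin N → A} {T : Set ι} {s : ι} (hs : s ∈ T) (j : Fin N) :
    X s j ∈ gen X T :=
  StarSubalgebra.le_topologicalClosure _ (StarAlgebra.subset_adjoin ℂ _ ⟨s, hs, j, rfl⟩)

theorem gen_le {X : ι → Fin N → A} {T : Set ι} {S : StarSubalgebra ℂ A}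
    (hS : IsClosed (S : Set A)) (h : ∀ s ∈ T, ∀ j, X s j ∈ S) : gen X T ≤ S :=
  StarSubalgebra.topologicalClosure_minimal
    (StarAlgebra.adjoin_le (by rintro _ ⟨s, hs, j, rfl⟩; exact h s hs j)) hS

theorem gen_mono {X : ι → Fin N → A} {T T' : Set ι} (h : T ⊆ T') : gen X T ≤ gen X T' :=
  gen_le (isClosed_gen X T') fun _ hs j => slot_mem_gen (h hs) j

/-- The elements *-commuting with `b` form a closed star subalgebra. -/
theorem isClosed_centralizer (s : Set A) :
    IsClosed (StarSubalgebra.centralizer ℂ s : Set A) := by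
  rw [StarSubalgebra.coe_centralizer]
  exact Set.isClosed_centralizer _

theorem starCommute_of_mem_centralizer {a b : A} {s : Set A}
    (ha : a ∈ StarSubalgebra.centralizer ℂ s) (hb : b ∈ s) : StarCommute a b := by
  have h := (StarSubalgebra.mem_centralizer_iff ℂ).1 ha b hb
  exact ⟨h.1.symm, h.2.symm⟩

theorem mem_centralizer_of_starCommute {a : A} {s : Set A} (h : ∀ b ∈ s, StarCommute a b) :
    a ∈ StarSubalgebra.centralizer ℂ s :=
  (StarSubalgebra.mem_centralizer_iff ℂ).2 fun b hb => ⟨(h b hb).1.symm.eq, (h b hb).2.symm.eq⟩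

variable [PartialOrder A] [StarOrderedRing A]

/-- Elements of disjoint blocks *-commute. -/
theorem starCommute_gen {δ : ℝ} {X : ι → Fin N → A} (hX : IsSlots δ X) {T T' : Set ι}
    (hd : Disjoint T T') {a b : A} (ha : a ∈ gen X T) (hb : b ∈ gen X T') : StarCommute a b := by
  have h1 : gen X T ≤ StarSubalgebra.centralizer ℂ {c : A | ∃ s ∈ T', ∃ j, X s j = c} := by
    refine gen_le (isClosed_centralizer _) fun s hs j => mem_centralizer_of_starCommute ?_
    rintro _ ⟨t, ht, i, rfl⟩
    exact hX.comm s t (fun e => Set.disjoint_left.1 hd hs (e ▸ ht)) j i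
  have h2 : gen X T' ≤ StarSubalgebra.centralizer ℂ {a} := by
    refine gen_le (isClosed_centralizer _) fun t ht i => mem_centralizer_of_starCommute ?_
    rintro _ rfl
    exact (starCommute_of_mem_centralizer (h1 ha) ⟨t, ht, i, rfl⟩).symm
  exact (starCommute_of_mem_centralizer (h2 hb) (Set.mem_singleton a)).symm

/-- A subfamily of slots. -/
theorem IsSlots.comp {δ : ℝ} {X : ι → Fin N → A} (hX : IsSlots δ X) {κ : Type*} (e : κ → ι)
    (he : Function.Injective e) : IsSlots δ (X ∘ e) :=
  ⟨fun s => hX.fam (e s), fun s t hst => hX.comm (e s) (e t) fun h => hst (he h)⟩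

/-- A closed star subalgebra is star ordered by the restricted order. -/
instance instStarOrderedRingSub (S : StarSubalgebra ℂ A) [IsClosed (S : Set A)] :
    StarOrderedRing S := by
  refine StarOrderedRing.of_nonneg_iff' (fun {x y} h z => ?_) fun x => ⟨fun h => ?_, ?_⟩
  · show (z : A) + x ≤ z + y
    exact add_le_add_right (show (x : A) ≤ y from h) _
  · have h0 : (0 : A) ≤ x := h
    have hx : IsSelfAdjoint (x : A) := IsSelfAdjoint.of_nonneg h0
    refine ⟨⟨cfc Real.sqrt (x : A), cfc_mem (𝕜' := ℂ) Real.sqrt x.2⟩, Subtype.ext ?_⟩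
    show (x : A) = star (cfc Real.sqrt (x : A)) * cfc Real.sqrt (x : A)
    rw [(cfc_predicate Real.sqrt (x : A)).star_eq, ← cfc_mul _ _ _ (by fun_prop) (by fun_prop)]
    conv_lhs => rw [← cfc_id' ℝ (x : A) hx]
    exact cfc_congr fun t ht => (Real.mul_self_sqrt (spectrum_nonneg_of_nonneg h0 ht)).symm
  · rintro ⟨t, rfl⟩
    exact star_mul_self_nonneg (t : A)

/-- Slots, seen in a closed star subalgebra containing them. -/
theorem IsSlots.codRestrict {δ : ℝ} {X : ι → Fin N → A} (hX : IsSlots δ X)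
    (S : StarSubalgebra ℂ A) [IsClosed (S : Set A)]
    (hS : ∀ s j, X s j ∈ S) : IsSlots δ (fun s j => (⟨X s j, hS s j⟩ : S)) := by
  refine ⟨fun s => ⟨fun j => Subtype.ext ((hX.fam s).sq j), (hX.fam s).norm_le, ?_⟩,
    fun s t hst i j => ⟨Subtype.ext (hX.comm s t hst i j).1, Subtype.ext (hX.comm s t hst i j).2⟩⟩
  show ((algebraMap ℝ S δ : S) : A) ≤ _
  simpa [Algebra.algebraMap_eq_smul_one] using (hX.fam s).bound

omit [PartialOrder A] [StarOrderedRing A] in
theorem StarCommute.map {B : Type*} [CStarAlgebra B] (φ : A →⋆ₐ[ℂ] B) {a b : A}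
    (h : StarCommute a b) : StarCommute (φ a) (φ b) :=
  ⟨h.1.map φ, by simpa [map_star] using h.2.map φ⟩

/-- Star homomorphisms preserve slots. -/
theorem IsSlots.map {B : Type u} [CStarAlgebra B] [PartialOrder B] [StarOrderedRing B]
    (φ : A →⋆ₐ[ℂ] B) {δ : ℝ} {X : ι → Fin N → A} (hX : IsSlots δ X) :
    IsSlots δ (fun s j => φ (X s j)) := by
  refine ⟨fun s => ⟨fun j => by rw [← map_mul, (hX.fam s).sq j, map_zero],
    fun j => (NonUnitalStarAlgHom.norm_apply_le φ _).trans ((hX.fam s).norm_le j), ?_⟩,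
    fun s t hst i j => (hX.comm s t hst i j).map φ⟩
  have h := OrderHomClass.mono φ (hX.fam s).bound
  have e : φ (algebraMap ℝ A δ) = algebraMap ℝ B δ := by
    rw [Algebra.algebraMap_eq_smul_one, Algebra.algebraMap_eq_smul_one, ← Complex.coe_smul,
      map_smul, map_one, Complex.coe_smul]
  rw [e] at h
  simpa [map_sum, map_star] using h

end Basics

/-! ### Fullness bounds -/

section Full

variable {A : Type u} [CStarAlgebra A]

theorem FullBy.mono {k k' : ℕ} {a : A} (h : FullBy k a) (hk : k ≤ k') : FullBy k' a := by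
  classical
  obtain ⟨c, hc⟩ := h
  obtain ⟨d, rfl⟩ := Nat.exists_eq_add_of_le hk
  exact ⟨Fin.append c 0, by rw [Fin.sum_univ_add]; simpa using hc⟩

theorem FullBy.map {B : Type*} [CStarAlgebra B] (φ : A →⋆ₐ[ℂ] B) {k : ℕ} {a : A}
    (h : FullBy k a) : FullBy k (φ a) := by
  obtain ⟨c, hc⟩ := h
  refine ⟨fun i => φ (c i), ?_⟩
  simp only [← map_star, ← map_mul, ← map_sum, hc, map_one]

/-- Products of elements of commuting subalgebras. -/
theorem FullBy.mul_commuting (S T : StarSubalgebra ℂ A)
    (hST : ∀ s ∈ S, ∀ t ∈ T, Commute s t) {k l : ℕ} {a b : A} (ha : a ∈ S) (hb : b ∈ T)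
    (hk : ∃ c : Fin k → A, (∀ i, c i ∈ S) ∧ ∑ i, star (c i) * a * c i = 1)
    (hl : ∃ d : Fin l → A, (∀ i, d i ∈ T) ∧ ∑ i, star (d i) * b * d i = 1) :
    FullBy (k * l) (a * b) := by
  obtain ⟨c, hcS, hc⟩ := hk
  obtain ⟨d, hdT, hd⟩ := hl
  refine ⟨fun p => c (finProdFinEquiv.symm p).1 * d (finProdFinEquiv.symm p).2, ?_⟩
  rw [← finProdFinEquiv.sum_comp]
  simp only [Equiv.symm_apply_apply]
  rw [Fintype.sum_prod_type, Finset.sum_comm]
  refine Eq.trans (Finset.sum_congr rfl fun i _ => ?_) hd
  have key : ∀ j, star (c j * d i) * (a * b) * (c j * d i) =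
      star (d i) * (star (c j) * a * c j) * (b * d i) := fun j => by
    have h1 : b * c j = c j * b := ((hST (c j) (hcS j) b hb).eq).symm
    rw [star_mul]
    calc star (d i) * star (c j) * (a * b) * (c j * d i)
        = star (d i) * star (c j) * a * (b * c j) * d i := by noncomm_ring
      _ = star (d i) * (star (c j) * a * c j) * (b * d i) := by rw [h1]; noncomm_ring
  simp only [key, ← Finset.sum_mul, ← Finset.mul_sum, hc]
  noncomm_ring

/-- Witnesses in a subalgebra from fullness there. -/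
theorem FullBy.exists_mem {S : StarSubalgebra ℂ A} [IsClosed (S : Set A)] {k : ℕ} {a : S}
    (h : FullBy k a) : ∃ c : Fin k → A, (∀ i, c i ∈ S) ∧ ∑ i, star (c i) * a.1 * c i = 1 := by
  obtain ⟨c, hc⟩ := h
  exact ⟨fun i => c i, fun i => (c i).2, by simpa using congrArg Subtype.val hc⟩

variable [PartialOrder A] [StarOrderedRing A]

/-- The Cauchy–Schwarz inequality for finite sums. -/
theorem star_sum_mul_sum_le {k : ℕ} (v : Fin k → A) :
    star (∑ i, v i) * ∑ i, v i ≤ (k : ℝ) • ∑ i, star (v i) * v i := by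
  have h : 0 ≤ ∑ i, ∑ j, star (v i - v j) * (v i - v j) :=
    Finset.sum_nonneg fun i _ => Finset.sum_nonneg fun j _ => star_mul_self_nonneg _
  have e : ∑ i, ∑ j, star (v i - v j) * (v i - v j) =
      (2 : ℝ) • ((k : ℝ) • (∑ i, star (v i) * v i) - star (∑ i, v i) * ∑ i, v i) := by
    simp only [star_sub, sub_mul, mul_sub, Finset.sum_sub_distrib, Finset.sum_const,
      Finset.card_univ, Fintype.card_fin, ← Finset.mul_sum, ← Finset.sum_mul, star_sum,
      Nat.cast_smul_eq_nsmul, Finset.smul_sum, two_smul]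
    abel
  rw [e] at h
  have := smul_nonneg (show (0 : ℝ) ≤ 1 / 2 by norm_num) h
  rwa [smul_smul, show (1 / 2 : ℝ) * 2 = 1 by norm_num, one_smul, sub_nonneg] at this

/-- Normalisation: a lower bound on a sum of conjugates gives fullness. -/
theorem fullBy_of_algebraMap_le {k : ℕ} {f : A} {ε : ℝ} (hε : 0 < ε) (c : Fin k → A)
    (h : algebraMap ℝ A ε ≤ ∑ i, star (c i) * f * c i) : FullBy k f := by
  set T := ∑ i, star (c i) * f * c i with hT
  have hT0 : 0 ≤ T := le_trans (by
    rw [Algebra.algebraMap_eq_smul_one]; exact smul_nonneg hε.le zero_le_one) h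
  have hTs : IsSelfAdjoint T := IsSelfAdjoint.of_nonneg hT0
  have hsp : ∀ t ∈ spectrum ℝ T, ε ≤ t := (algebraMap_le_iff_le_spectrum hTs).1 h
  let r : ℝ → ℝ := fun t => (√(max t ε))⁻¹
  have hr : Continuous r := by
    refine Continuous.inv₀ (by fun_prop) fun t => Real.sqrt_ne_zero'.2 ?_
    have := le_max_right t ε
    linarith
  have hrst : star (cfc r T) = cfc r T := (cfc_predicate r T).star_eq
  refine ⟨fun i => c i * cfc r T, ?_⟩
  calc ∑ i, star (c i * cfc r T) * f * (c i * cfc r T) = cfc r T * T * cfc r T := by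
        rw [hT, Finset.mul_sum, Finset.sum_mul]
        refine Finset.sum_congr rfl fun i _ => ?_
        rw [star_mul, ← hT, hrst]
        noncomm_ring
    _ = cfc (fun t => r t * t * r t) T := by
        rw [cfc_mul (fun t => r t * t) r T (hr.continuousOn.mul continuousOn_id) hr.continuousOn,
          cfc_mul r (fun t => t) T hr.continuousOn continuousOn_id, cfc_id' ℝ T hTs]
    _ = cfc (fun _ => (1 : ℝ)) T := cfc_congr fun t ht => by
        have := hsp t ht
        simp only [r, max_eq_left this]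
        rw [mul_comm (√t)⁻¹ t, mul_assoc, ← mul_inv, Real.mul_self_sqrt (by linarith),
          mul_inv_cancel₀ (by linarith : t ≠ 0)]
    _ = 1 := cfc_const_one ℝ T hTs

/-- `1 = ∑ b_i f c_i` makes a positive `f` full. -/
theorem fullBy_of_sum {k : ℕ} {f : A} (hf : 0 ≤ f) (b c : Fin k → A)
    (h : ∑ i, b i * f * c i = 1) : FullBy k f := by
  set C : ℝ := (k : ℝ) * ((∑ i, ‖b i‖ ^ 2) * ‖f‖) + 1 with hC
  have hC0 : 0 < C := by positivity
  have hfs : IsSelfAdjoint f := IsSelfAdjoint.of_nonneg hf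
  have hterm : ∀ i, star (b i * f * c i) * (b i * f * c i) ≤
      ((∑ i, ‖b i‖ ^ 2) * ‖f‖) • (star (c i) * f * c i) := fun i => by
    have h1 : star (b i) * b i ≤ algebraMap ℝ A (∑ i, ‖b i‖ ^ 2) := by
      refine (IsSelfAdjoint.star_mul_self (b i)).le_algebraMap_norm_self.trans (algebraMap_mono A ?_)
      rw [CStarRing.norm_star_mul_self, ← sq]
      exact Finset.single_le_sum (fun j _ => sq_nonneg ‖b j‖) (Finset.mem_univ i)
    have h2 : f * f ≤ ‖f‖ • f := by
      rw [show f * f = cfc (fun t : ℝ => t * t) f by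
          rw [cfc_mul (fun t => t) (fun t => t) f continuousOn_id continuousOn_id,
            cfc_id' ℝ f hfs],
        show ‖f‖ • f = cfc (fun t : ℝ => ‖f‖ * t) f by rw [cfc_const_mul_id ‖f‖ f hfs]]
      refine cfc_mono fun t ht => mul_le_mul_of_nonneg_right ?_ (spectrum_nonneg_of_nonneg hf ht)
      rcases subsingleton_or_nontrivial A with hA | hA
      · simp [Subsingleton.elim f 0] at ht
      exact (le_abs_self t).trans (by simpa using spectrum.norm_le_norm_of_mem ht)
    have h3 := star_left_conjugate_le_conjugate h1 (f * c i)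
    have h4 := star_left_conjugate_le_conjugate h2 (c i)
    calc star (b i * f * c i) * (b i * f * c i)
        = star (f * c i) * (star (b i) * b i) * (f * c i) := by
          simp only [star_mul, mul_assoc]
      _ ≤ star (f * c i) * algebraMap ℝ A (∑ i, ‖b i‖ ^ 2) * (f * c i) := h3
      _ = (∑ i, ‖b i‖ ^ 2) • (star (c i) * (f * f) * c i) := by
          rw [Algebra.algebraMap_eq_smul_one, mul_smul_comm, smul_mul_assoc, mul_one, star_mul,
            hfs.star_eq]
          simp only [mul_assoc]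
      _ ≤ (∑ i, ‖b i‖ ^ 2) • (star (c i) * (‖f‖ • f) * c i) :=
          smul_le_smul_of_nonneg_left h4 (by positivity)
      _ = _ := by simp [smul_smul]
  have hT0 : 0 ≤ ∑ i, star (c i) * f * c i :=
    Finset.sum_nonneg fun i _ => star_left_conjugate_nonneg hf (c i)
  have h1 : (1 : A) ≤ C • ∑ i, star (c i) * f * c i := by
    calc (1 : A) = star (∑ i, b i * f * c i) * ∑ i, b i * f * c i := by rw [h]; simp
      _ ≤ (k : ℝ) • ∑ i, star (b i * f * c i) * (b i * f * c i) := star_sum_mul_sum_le _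
      _ ≤ (k : ℝ) • ∑ i, ((∑ i, ‖b i‖ ^ 2) * ‖f‖) • (star (c i) * f * c i) :=
          smul_le_smul_of_nonneg_left (Finset.sum_le_sum fun i _ => hterm i) (by positivity)
      _ ≤ C • ∑ i, star (c i) * f * c i := by
          rw [← Finset.smul_sum, smul_smul, hC]
          exact smul_le_smul_of_nonneg_right (by linarith) hT0
  refine fullBy_of_algebraMap_le (inv_pos.2 hC0) c ?_
  rw [Algebra.algebraMap_eq_smul_one]
  have := smul_le_smul_of_nonneg_left h1 (inv_nonneg.2 hC0.le)
  rwa [smul_smul, inv_mul_cancel₀ hC0.ne', one_smul] at this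

/-- Fullness is inherited upwards. -/
theorem FullBy.of_le {k : ℕ} {a b : A} {C : ℝ} (hC : 0 < C) (hab : a ≤ C • b) (h : FullBy k a) :
    FullBy k b := by
  obtain ⟨c, hc⟩ := h
  refine fullBy_of_algebraMap_le (inv_pos.2 hC) c ?_
  have h1 : (1 : A) ≤ C • ∑ i, star (c i) * b * c i := by
    rw [← hc, Finset.smul_sum]
    refine Finset.sum_le_sum fun i _ => (star_left_conjugate_le_conjugate hab (c i)).trans ?_
    simp
  rw [Algebra.algebraMap_eq_smul_one]
  have := smul_le_smul_of_nonneg_left h1 (inv_nonneg.2 hC.le)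
  rwa [smul_smul, inv_mul_cancel₀ hC.ne', one_smul] at this

theorem IsFull.of_le {a b : A} {C : ℝ} (hC : 0 < C) (hab : a ≤ C • b) (h : IsFull a) : IsFull b :=
  let ⟨k, hk⟩ := h
  ⟨k, hk.of_le hC hab⟩

end Full

/-! ### Bounded products -/

section Product

variable (B : ℕ → Type u) [∀ n, CStarAlgebra (B n)] [∀ n, Nontrivial (B n)]

/-- The bounded product, as a C*-algebra. -/
@[reducible] def prodCStarAlgebra : CStarAlgebra (lp B ∞) :=
  { (inferInstance : NormedRing (lp B ∞)), (inferInstance : NonUnitalCStarAlgebra (lp B ∞)),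
    (inferInstance : NormedAlgebra ℂ (lp B ∞)) with }

/-- The projection onto one component of the bounded product. -/
def prodEval (n : ℕ) :
    letI := prodCStarAlgebra B
    lp B ∞ →⋆ₐ[ℂ] B n :=
  letI := prodCStarAlgebra B
  { toFun := fun x => x n
    map_one' := rfl
    map_mul' := fun _ _ => rfl
    map_zero' := rfl
    map_add' := fun _ _ => rfl
    commutes' := fun _ => rfl
    map_star' := fun _ => rfl }

end Product

/-- **Uniformisation**: a property preserved by star homomorphisms, realised in every algebra by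
elements some of which are full, is realised with one fullness bound for all algebras. -/
theorem uniform_fullBy {N m r : ℕ} {δ : ℝ}
    (R : ∀ (B : Type u) [CStarAlgebra B] [PartialOrder B] [StarOrderedRing B],
      (Fin m → Fin N → B) → (Fin r → B) → Prop)
    (hR : ∀ (B C : Type u) [CStarAlgebra B] [PartialOrder B] [StarOrderedRing B] [CStarAlgebra C]
      [PartialOrder C] [StarOrderedRing C] (φ : B →⋆ₐ[ℂ] C) (X : Fin m → Fin N → B)
      (w : Fin r → B), R B X w → R C (fun s j => φ (X s j)) (fun i => φ (w i)))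
    (F : Finset (Fin r))
    (h : ∀ (B : Type u) [CStarAlgebra B] [PartialOrder B] [StarOrderedRing B]
      (X : Fin m → Fin N → B), IsSlots δ X → ∃ w, R B X w ∧ ∀ i ∈ F, IsFull (w i)) :
    ∃ k : ℕ, ∀ (B : Type u) [CStarAlgebra B] [PartialOrder B] [StarOrderedRing B]
      (X : Fin m → Fin N → B), IsSlots δ X → ∃ w, R B X w ∧ ∀ i ∈ F, FullBy k (w i) := by
  by_contra hcon
  push Not at hcon
  choose B instA instP instS X hX hbad using hcon
  have hnt : ∀ n, Nontrivial (B n) := by
    intro n
    by_contra htriv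
    rw [not_nontrivial_iff_subsingleton] at htriv
    obtain ⟨w, hw, -⟩ := h (B n) (X n) (hX n)
    obtain ⟨i, -, hi⟩ := hbad n w hw
    exact hi ⟨0, Subsingleton.elim _ _⟩
  letI := prodCStarAlgebra B
  letI : PartialOrder (lp B ∞) := CStarAlgebra.spectralOrder (lp B ∞)
  haveI : StarOrderedRing (lp B ∞) := CStarAlgebra.spectralOrderedRing (lp B ∞)
  let Y : Fin m → Fin N → lp B ∞ := fun s j => ⟨fun n => X n s j, memℓp_infty ⟨1, by
    rintro _ ⟨n, rfl⟩
    exact ((hX n).fam s).norm_le j⟩⟩
  have hY : IsSlots δ Y := by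
    refine ⟨fun s => ⟨fun j => lp.ext (funext fun n => ((hX n).fam s).sq j),
      fun j => lp.norm_le_of_forall_le zero_le_one fun n => ((hX n).fam s).norm_le j, ?_⟩,
      fun s t hst i j => ⟨lp.ext (funext fun n => ((hX n).comm s t hst i j).1),
        lp.ext (funext fun n => ((hX n).comm s t hst i j).2)⟩⟩
    rw [← sub_nonneg]
    set d := ∑ j, star (Y s j) * Y s j - algebraMap ℝ (lp B ∞) δ with hd
    have hdn : ∀ n, (0 : B n) ≤ d n := fun n => by
      have hn := sub_nonneg.2 ((hX n).fam s).bound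
      rw [show (d n : B n) = prodEval B n d from rfl, hd, map_sub, map_sum]
      simp only [map_mul, map_star, Algebra.algebraMap_eq_smul_one, map_one]
      rw [show prodEval B n (δ • (1 : lp B ∞)) = δ • (1 : B n) from rfl]
      rw [Algebra.algebraMap_eq_smul_one] at hn
      exact hn
    have hbd : BddAbove (Set.range fun n => ‖CFC.sqrt (d n)‖) := by
      refine ⟨√‖d‖, ?_⟩
      rintro _ ⟨n, rfl⟩
      refine Real.le_sqrt_of_sq_le ?_
      have hsa := (IsSelfAdjoint.of_nonneg (CFC.sqrt_nonneg (d n))).star_eq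
      rw [sq, ← CStarRing.norm_star_mul_self, hsa, CFC.sqrt_mul_sqrt_self (d n) (hdn n)]
      exact lp.norm_apply_le_norm ENNReal.top_ne_zero d n
    let q : lp B ∞ := ⟨fun n => CFC.sqrt (d n), memℓp_infty hbd⟩
    have hq : d = star q * q := lp.ext (funext fun n => by
      show d n = star (CFC.sqrt (d n)) * CFC.sqrt (d n)
      rw [(IsSelfAdjoint.of_nonneg (CFC.sqrt_nonneg (d n))).star_eq,
        CFC.sqrt_mul_sqrt_self (d n) (hdn n)])
    calc (0 : lp B ∞) ≤ star q * q := star_mul_self_nonneg q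
      _ = _ := hq.symm
  obtain ⟨w, hw, hfull⟩ := h (lp B ∞) Y hY
  choose k hk using hfull
  let K := F.attach.sup fun i => k i.1 i.2
  obtain ⟨i, hiF, hi⟩ := hbad K (fun i => prodEval B K (w i)) (hR _ (B K) (prodEval B K) Y w hw)
  exact hi (((hk i hiF).map (prodEval B K)).mono
    (Finset.le_sup (f := fun i : F => k i.1 i.2) (Finset.mem_attach F ⟨i, hiF⟩)))

end Vale.Agent.P101
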