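import Vale.Agent.P101.OddPair
import Vale.Agent.P101.Colours.Poly
import Vale.Agent.P101.Colours.Units
import Vale.Agent.P101.Colours.Eval

/-!
# P101: the colours

For each `j` the cuts of the `j`th elements of the slots give CAR modes whose Gram matrix has
polynomial entries in the commuting weights; orthogonalising them gives `2^n` weighted matrix units,
with a total weight dominating the mean weight minus a threshold.
-/

open Finset MvPolynomial

noncomputable section

namespace Vale.Agent.P101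

open Colours

universe u

variable {B : Type u} [CStarAlgebra B] [PartialOrder B] [StarOrderedRing B]

namespace Colours

/-- Below the threshold nothing is claimed, above it the total weight is bounded from below. -/
theorem exists_lower {m n : ℕ} {θ : ℝ} (hθ : 0 < θ) (hm : 2 * (n : ℝ) ≤ m * θ) (hm0 : 0 < m)
    (p : Fin n → Fin m → MvPolynomial (Fin m) ℝ)
    (hp : ∀ t : Fin m → ℝ, (∀ s, 0 ≤ t s) → n ≤ (univ.filter fun s => 0 < t s).card →
      ∀ k, 0 < eval t (ip (p k) (p k))) :
    ∃ c > 0, ∀ t : Fin m → ℝ, (∀ s, t s ∈ Set.Icc (0 : ℝ) 2) →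
      c * ((m : ℝ)⁻¹ * ∑ s, t s - θ) ≤ eval t (qprod fun k => ip (p k) (p k)) ^ 2 := by
  classical
  set F := qprod fun k => ip (p k) (p k)
  let K : Set (Fin m → ℝ) :=
    (Set.univ.pi fun _ => Set.Icc (0 : ℝ) 2) ∩ {t | θ ≤ (m : ℝ)⁻¹ * ∑ s, t s}
  have hK : IsCompact K := (isCompact_univ_pi fun _ => isCompact_Icc).inter_right
    (isClosed_le continuous_const (by fun_prop))
  have hpos : ∀ t ∈ K, 0 < eval t F ^ 2 := by
    rintro t ⟨hbox, hmean⟩
    have hbox' : ∀ s, t s ∈ Set.Icc (0 : ℝ) 2 := fun s => hbox s (Set.mem_univ s)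
    refine pow_pos ?_ 2
    rw [map_qprod]
    refine qprod_pos _ (hp t (fun s => (hbox' s).1) ?_)
    have h1 : ∑ s, t s ≤ 2 * ((univ.filter fun s => 0 < t s).card : ℝ) := by
      calc ∑ s, t s ≤ ∑ s, (if 0 < t s then (2 : ℝ) else 0) := by
            refine sum_le_sum fun s _ => ?_
            split_ifs with h
            · exact (hbox' s).2
            · exact not_lt.1 h
        _ = 2 * ((univ.filter fun s => 0 < t s).card : ℝ) := by
            rw [← sum_filter, sum_const, nsmul_eq_mul, mul_comm]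
    have h2 : θ * m ≤ ∑ s, t s := by
      have h := mul_le_mul_of_nonneg_left hmean (Nat.cast_nonneg (α := ℝ) m)
      rwa [← mul_assoc, mul_inv_cancel₀ (Nat.cast_ne_zero.2 hm0.ne'), one_mul, mul_comm] at h
    have : (n : ℝ) ≤ ((univ.filter fun s => 0 < t s).card : ℝ) := by linarith
    exact_mod_cast this
  obtain ⟨ε, hε, hle⟩ := hK.exists_forall_le' (f := fun t => eval t F ^ 2)
    (MvPolynomial.continuous_eval F |>.pow 2).continuousOn hpos
  refine ⟨ε / 2, by linarith, fun t ht => ?_⟩
  have hsum : (m : ℝ)⁻¹ * ∑ s, t s ≤ 2 := by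
    have h : ∑ s, t s ≤ (m : ℝ) * 2 := (sum_le_sum fun s _ => (ht s).2).trans (by simp)
    rw [inv_mul_le_iff₀ (by exact_mod_cast hm0)]
    exact h
  by_cases h : θ ≤ (m : ℝ)⁻¹ * ∑ s, t s
  · have h' : ε ≤ eval t F ^ 2 := hle t ⟨fun s _ => ht s, h⟩
    nlinarith
  · have h' : ε / 2 * ((m : ℝ)⁻¹ * ∑ s, t s - θ) ≤ 0 :=
      mul_nonpos_of_nonneg_of_nonpos (by linarith) (by linarith)
    exact h'.trans (sq_nonneg _)

/-- One colour. -/
theorem exists_colour {m n : ℕ} (p : Fin n → Fin m → MvPolynomial (Fin m) ℝ)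
    (hp : ∀ k l, k ≠ l → ip (p k) (p l) = 0) (x U : Fin m → B) (hxU : ∀ s, OddPair (x s) (U s))
    (hcomm : ∀ s t, s ≠ t → StarCommute (x s) (x t) ∧ StarCommute (x s) (U t) ∧
      StarCommute (U s) (U t))
    (hnorm : ∀ s, ‖x s‖ ≤ 1) {θ c : ℝ}
    (hc : ∀ t : Fin m → ℝ, (∀ s, t s ∈ Set.Icc (0 : ℝ) 2) →
      c * ((m : ℝ)⁻¹ * ∑ s, t s - θ) ≤ eval t (qprod fun k => ip (p k) (p k)) ^ 2) :
    ∃ (E : Fin (2 ^ n) → Fin (2 ^ n) → B) (Q : B), IsUnits E Q ∧
      c • ((m : ℝ)⁻¹ • ∑ s, (star (x s) * x s + x s * star (x s)) - algebraMap ℝ B θ) ≤ Q * Q := by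
  classical
  rcases subsingleton_or_nontrivial B with hB | hB
  · exact ⟨fun _ _ => 0, 0, ⟨fun _ _ => Subsingleton.elim _ _, fun _ _ _ => Subsingleton.elim _ _,
      fun _ _ _ _ _ => Subsingleton.elim _ _, Subsingleton.elim _ _⟩,
      le_of_eq (Subsingleton.elim _ _)⟩
  set z := jw x U
  set u : Fin m → B := fun s => star (x s) * x s + x s * star (x s) with hu
  have hz : IsCAR z u := isCAR_jw x U hxU hcomm
  have hus : ∀ s, star (u s) = u s := fun s => by
    simp only [hu, star_add, star_mul, star_star]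
  have huz : ∀ s t, Commute (u s) (star (z t)) := fun s t => by
    have h := (hz.comm s t).star_star
    rwa [hus] at h
  have huu : ∀ s t, Commute (u s) (u t) := fun s t => by
    have h := hz.weight t t
    rw [if_pos rfl] at h
    rw [← h]
    exact ((huz s t).mul_right (hz.comm s t)).add_right ((hz.comm s t).mul_right (huz s t))
  obtain ⟨φ, hφX, hφc, hφs, hφpos⟩ := exists_eval u hus huu
  have hφz : ∀ f t, Commute (φ f) (z t) := fun f t =>
    (hφc f (z t) fun s => (hz.comm s t).symm).symm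
  have hφz' : ∀ f t, Commute (φ f) (star (z t)) := fun f t =>
    (hφc f (star (z t)) fun s => (huz s t).symm).symm
  have hφφ : ∀ f g, Commute (φ f) (φ g) := fun f g => by
    show φ f * φ g = φ g * φ f
    rw [← map_mul, ← map_mul, mul_comm]
  let b : Fin n → B := fun k => ∑ s, φ (p k s) * z s
  have hbs : ∀ k, star (b k) = ∑ s, φ (p k s) * star (z s) := fun k => by
    simp only [b, star_sum, star_mul, hφs]
    exact sum_congr rfl fun s _ => (hφz' _ s).eq.symm
  have hswap : ∀ (f g : MvPolynomial (Fin m) ℝ) (a a' : B),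
      Commute (φ g) a → φ f * a * (φ g * a') = φ (f * g) * (a * a') := fun f g a a' h => by
    rw [(h.symm).mul_mul_mul_comm, map_mul]
  have hb : IsCAR b fun k => φ (ip (p k) (p k)) := by
    refine ⟨fun k l => ?_, fun k l => ?_, fun k l => ?_⟩
    · simp only [b, sum_mul, mul_sum, hswap _ _ _ _ (hφz _ _)]
      rw [sum_comm, ← sum_add_distrib]
      refine sum_eq_zero fun s _ => ?_
      rw [← sum_add_distrib]
      refine sum_eq_zero fun t _ => ?_
      rw [mul_comm (p l t) (p k s), ← mul_add, hz.anti, mul_zero]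
    · simp only [hbs, b, sum_mul, mul_sum, hswap _ _ _ _ (hφz _ _), hswap _ _ _ _ (hφz' _ _)]
      rw [sum_comm (f := fun t s => φ (p k s * p l t) * (star (z s) * z t)), ← sum_add_distrib]
      have e : ∀ s, ∑ t, φ (p k s * p l t) * (star (z s) * z t) +
          ∑ t, φ (p l t * p k s) * (z t * star (z s)) = φ (X s * p k s * p l s) := fun s => by
        rw [← sum_add_distrib, sum_eq_single s]
        · rw [mul_comm (p l s), ← mul_add, hz.weight, if_pos rfl, ← hφX, ← map_mul]
          congr 1; ring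
        · intro t _ hts
          rw [mul_comm (p l t), ← mul_add, hz.weight, if_neg (Ne.symm hts), mul_zero]
        · exact fun h => absurd (mem_univ s) h
      rw [sum_congr rfl fun s _ => e s, ← map_sum, show ∑ s, X s * p k s * p l s = ip (p k) (p l) from rfl]
      split_ifs with h
      · rw [h]
      · rw [hp k l h, map_zero]
    · exact Commute.sum_right _ _ _ fun s _ => (hφφ _ _).mul_right (hφz _ s)
  obtain ⟨E, hE, -⟩ := exists_units b _ hb
  refine ⟨E, _, hE, ?_⟩
  rw [← map_qprod]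
  set F := qprod fun k => ip (p k) (p k)
  have hspec : ∀ s, ∀ t ∈ spectrum ℝ (u s), t ∈ Set.Icc (0 : ℝ) 2 := by
    intro s t ht
    refine ⟨spectrum_nonneg_of_nonneg (add_nonneg (star_mul_self_nonneg _) (mul_star_self_nonneg _)) ht, ?_⟩
    refine (le_abs_self t).trans ((spectrum.norm_le_norm_of_mem ht).trans ?_)
    refine (norm_add_le _ _).trans ?_
    have h1 : ‖star (x s) * x s‖ ≤ 1 :=
      (norm_mul_le _ _).trans (mul_le_one₀ (by rw [norm_star]; exact hnorm s) (norm_nonneg _) (hnorm s))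
    have h2 : ‖x s * star (x s)‖ ≤ 1 :=
      (norm_mul_le _ _).trans (mul_le_one₀ (hnorm s) (norm_nonneg _) (by rw [norm_star]; exact hnorm s))
    linarith
  have h := hφpos 2 hspec (F * F - C c * (C (m : ℝ)⁻¹ * (∑ s, X s) - C θ)) fun t ht => by
    simp only [map_sub, map_mul, map_sum, eval_X, eval_C, sub_nonneg]
    rw [← sq]
    exact hc t ht
  have hC : ∀ r : ℝ, φ (C r) = algebraMap ℝ B r := fun r => φ.commutes r
  simp only [map_sub, map_mul, map_sum, hC, hφX, sub_nonneg] at h
  simpa only [Algebra.smul_def] using h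

end Colours

/-- `N` colours of weighted matrix units with invertible total weight. -/
theorem colours : ColourStatement.{u} := by
  intro N n δ hδ
  set η := δ / (8 * (N + 1)) with hη
  set θ := δ / (4 * (N + 1)) with hθ
  have hη0 : 0 < η := by positivity
  have hθ0 : 0 < θ := by positivity
  set m := ⌈2 * (n : ℝ) / θ⌉₊ + 1 with hm
  have hm0 : 0 < m := by omega
  have hmθ : 2 * (n : ℝ) ≤ m * θ := by
    rw [← div_le_iff₀ hθ0, hm, Nat.cast_add, Nat.cast_one]
    exact (Nat.le_ceil _).trans (by linarith)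
  obtain ⟨p, hp, hpos⟩ := exists_orth m n
  obtain ⟨c, hc0, hc⟩ := exists_lower hθ0 hmθ hm0 p fun t ht hcard k => (hpos t ht hcard k).2
  refine ⟨m, fun B _ _ _ X hX => ?_⟩
  have hcol : ∀ j : Fin N, ∃ (E : Fin (2 ^ n) → Fin (2 ^ n) → B) (Q : B), IsUnits E Q ∧
      c • ((m : ℝ)⁻¹ • ∑ s, (star (cut η (X s j)) * cut η (X s j) +
        cut η (X s j) * star (cut η (X s j))) - algebraMap ℝ B θ) ≤ Q * Q := by
    intro j
    refine exists_colour p hp (fun s => cut η (X s j)) (fun s => parity η (X s j))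
      (fun s => oddPair_cut hη0 ((hX.fam s).sq j)) (fun s t hst => ?_)
      (fun s => norm_cut_le η ((hX.fam s).norm_le j)) hc
    have h1 := ((hX.comm s t hst j j).cut_parity η)
    have h2 := h1.1.symm.cut_parity η
    have h3 := h1.2.symm.cut_parity η
    exact ⟨h2.1.symm, h3.1.symm, h3.2.symm⟩
  choose E Q hE hQ using hcol
  refine ⟨E, Q, fun j => (hE j).star_E, fun j => (hE j).mul_same, fun j => (hE j).mul_ne,
    fun j => (hE j).sum_diag, ?_⟩
  -- the total weight
  have hlow : ∀ s, algebraMap ℝ B (δ - N * (2 * η)) ≤ ∑ j, (star (cut η (X s j)) * cut η (X s j) +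
      cut η (X s j) * star (cut η (X s j))) := by
    intro s
    calc algebraMap ℝ B (δ - N * (2 * η))
        ≤ ∑ j, star (X s j) * X s j - algebraMap ℝ B (N * (2 * η)) := by
          rw [map_sub]; exact sub_le_sub_right (hX.fam s).bound _
      _ = ∑ j, (star (X s j) * X s j - algebraMap ℝ B (2 * η)) := by
          rw [sum_sub_distrib, sum_const, card_univ, Fintype.card_fin, ← map_nsmul, nsmul_eq_mul]
      _ ≤ _ := sum_le_sum fun j _ =>
          (le_star_mul_cut hη0 _).trans (le_add_of_nonneg_right (mul_star_self_nonneg _))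
  have hκ : 0 < c * (δ - N * (2 * η) - N * θ) := by
    refine mul_pos hc0 ?_
    have h1 : (N : ℝ) * (2 * η) ≤ δ / 4 := by
      rw [hη, show δ / 4 = ((N : ℝ) + 1) * (2 * (δ / (8 * (N + 1)))) by field_simp; ring]
      exact mul_le_mul_of_nonneg_right (by linarith) (by positivity)
    have h2 : (N : ℝ) * θ ≤ δ / 4 := by
      rw [hθ, show δ / 4 = ((N : ℝ) + 1) * (δ / (4 * (N + 1))) by field_simp]
      exact mul_le_mul_of_nonneg_right (by linarith) (by positivity)
    linarith
  have hle : algebraMap ℝ B (c * (δ - N * (2 * η) - N * θ)) ≤ ∑ j, Q j * Q j := by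
    refine le_trans ?_ (sum_le_sum fun j _ => hQ j)
    rw [← smul_sum, sum_sub_distrib, sum_const, card_univ, Fintype.card_fin, ← smul_sum, sum_comm,
      ← map_nsmul, nsmul_eq_mul, map_mul, ← Algebra.smul_def, map_sub]
    refine smul_le_smul_of_nonneg_left (sub_le_sub_right ?_ _) hc0.le
    calc algebraMap ℝ B (δ - N * (2 * η))
        = (m : ℝ)⁻¹ • ∑ _s : Fin m, algebraMap ℝ B (δ - N * (2 * η)) := by
          rw [sum_const, card_univ, Fintype.card_fin, ← Nat.cast_smul_eq_nsmul ℝ, inv_smul_smul₀]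
          exact_mod_cast hm0.ne'
      _ ≤ _ := smul_le_smul_of_nonneg_left (sum_le_sum fun s _ => hlow s) (by positivity)
  exact CStarAlgebra.isUnit_of_le (algebraMap ℝ B _) hle
    ⟨algebraMap_nonneg _ hκ.le, (isUnit_iff_ne_zero.2 hκ.ne').map _⟩

end Vale.Agent.P101
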