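import Mathlib

/-!
# Quotient of a C*-algebra by a closed two-sided ideal

For `J : Ideal C` with `[J.IsTwoSided]` and `[IsClosed (J : Set C)]` the quotient `C ⧸ J` is a
C*-algebra, `quotStar J` is the quotient star homomorphism.
-/

namespace Vale.Agent.P101

variable {C : Type*} [CStarAlgebra C]

/-- A positive contraction `u` in the ideal generated by `star j * j` with `j (1 - u)` small. -/
theorem exists_local_unit (j : C) {ε : ℝ} (hε : 0 < ε) :
    ∃ u w : C, u = star j * j * w ∧ IsSelfAdjoint u ∧ ‖1 - u‖ ≤ 1 ∧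
      ‖j * (1 - u)‖ * ‖j * (1 - u)‖ ≤ ε := by
  have ha : IsSelfAdjoint (star j * j) := IsSelfAdjoint.star_mul_self j
  have hpos : ∀ t ∈ spectrum ℝ (star j * j), (0 : ℝ) ≤ t := fun t ht =>
    spectrum_star_mul_self_nonneg t ht
  have hc : ContinuousOn (fun t : ℝ => 1 / (t + ε)) (spectrum ℝ (star j * j)) :=
    continuousOn_const.div (by fun_prop) fun t ht => by linarith [hpos t ht]
  have hd : ContinuousOn (fun t : ℝ => ε / (t + ε)) (spectrum ℝ (star j * j)) :=
    continuousOn_const.div (by fun_prop) fun t ht => by linarith [hpos t ht]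
  set w := cfc (fun t : ℝ => 1 / (t + ε)) (star j * j) with hw
  set q := cfc (fun t : ℝ => ε / (t + ε)) (star j * j) with hq
  have hsum : star j * j * w + q = 1 := by
    conv_lhs => arg 1; arg 1; rw [← cfc_id' ℝ (star j * j) ha]
    rw [hw, hq, ← cfc_mul (fun t : ℝ => t) (fun t : ℝ => 1 / (t + ε)) (star j * j) (by fun_prop) hc,
      ← cfc_add (star j * j) (fun t : ℝ => t * (1 / (t + ε))) (fun t : ℝ => ε / (t + ε))
        (continuousOn_id.mul hc) hd, ← cfc_const_one ℝ (star j * j)]
    exact cfc_congr fun t ht => by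
      have : t + ε ≠ 0 := by linarith [hpos t ht]
      field_simp
  have h1 : 1 - star j * j * w = q := by rw [← hsum]; abel
  have hqsa : IsSelfAdjoint q := cfc_predicate _ _
  refine ⟨star j * j * w, w, rfl, ?_, ?_, ?_⟩
  · rw [show star j * j * w = 1 - q by rw [← h1]; abel]
    exact (IsSelfAdjoint.one C).sub hqsa
  · rw [h1, hq]
    refine norm_cfc_le zero_le_one fun t ht => ?_
    have := hpos t ht
    rw [Real.norm_eq_abs, abs_of_nonneg (by positivity), div_le_one (by linarith)]
    linarith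
  · rw [h1, ← CStarRing.norm_star_mul_self, star_mul, hqsa.star_eq,
      show q * star j * (j * q) = q * (star j * j) * q by simp only [mul_assoc]]
    conv_lhs => arg 1; arg 1; arg 2; rw [← cfc_id' ℝ (star j * j) ha]
    rw [hq, ← cfc_mul (fun t : ℝ => ε / (t + ε)) (fun t : ℝ => t) (star j * j) hd (by fun_prop),
      ← cfc_mul (fun t : ℝ => ε / (t + ε) * t) (fun t : ℝ => ε / (t + ε)) (star j * j)
        (hd.mul continuousOn_id) hd]
    refine norm_cfc_le hε.le fun t ht => ?_
    have := hpos t ht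
    rw [Real.norm_eq_abs, abs_of_nonneg (by positivity)]
    have h2 : 0 < t + ε := by linarith
    rw [div_mul_eq_mul_div, div_mul_div_comm, div_le_iff₀ (by positivity)]
    nlinarith [mul_nonneg hε.le (mul_nonneg this this), mul_nonneg (mul_nonneg hε.le hε.le) this,
      mul_nonneg (mul_nonneg hε.le hε.le) hε.le]

variable (J : Ideal C) [J.IsTwoSided] [hJ : IsClosed (J : Set C)]

/-- A closed two-sided ideal is star closed. -/
theorem ideal_star_mem {j : C} (hj : j ∈ J) : star j ∈ J := by
  rw [← SetLike.mem_coe, ← hJ.closure_eq, Metric.mem_closure_iff]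
  intro ε hε
  obtain ⟨u, w, hu, husa, -, hsmall⟩ := exists_local_unit (star j) (ε := ε ^ 2 / 4) (by positivity)
  rw [star_star] at hu
  refine ⟨star j * u, ?_, ?_⟩
  · refine Ideal.mul_mem_left J (star j) ?_
    rw [hu, mul_assoc]
    exact Ideal.mul_mem_right _ J hj
  · rw [dist_eq_norm, show star j - star j * u = star j * (1 - u) by rw [mul_sub, mul_one]]
    nlinarith [norm_nonneg (star j * (1 - u))]

/-- The distance estimate behind the C*-identity of the quotient. -/
theorem norm_mk_sq_le (x : C) :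
    ‖Ideal.Quotient.mk J x‖ * ‖Ideal.Quotient.mk J x‖ ≤
      ‖Ideal.Quotient.mk J (star x * x)‖ := by
  refine le_of_forall_pos_le_add fun ε hε => ?_
  obtain ⟨y, hy, hyn⟩ := Submodule.Quotient.norm_mk_lt (S := J)
    (Ideal.Quotient.mk J (star x * x)) (half_pos hε)
  set j := star x * x - y with hjdef
  have hj : j ∈ J := (Submodule.Quotient.eq J).1 hy.symm
  obtain ⟨u, w, hu, husa, hnorm, hsmall⟩ := exists_local_unit j (ε := (ε / 2) ^ 2) (by positivity)
  have huJ : u ∈ J := by
    rw [hu]
    exact Ideal.mul_mem_right w J (Ideal.mul_mem_left J (star j) hj)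
  have hle : ‖Ideal.Quotient.mk J x‖ ≤ ‖x * (1 - u)‖ := by
    have e : Ideal.Quotient.mk J (x * (1 - u)) = Ideal.Quotient.mk J x := by
      rw [Ideal.Quotient.eq, mul_sub, mul_one, sub_sub_cancel_left, neg_mem_iff]
      exact Ideal.mul_mem_left J x huJ
    rw [← e]
    exact Submodule.Quotient.norm_mk_le J _
  have hsa : IsSelfAdjoint (1 - u) := (IsSelfAdjoint.one C).sub husa
  have key : ‖x * (1 - u)‖ * ‖x * (1 - u)‖ ≤ ‖y‖ + ε / 2 := by
    rw [← CStarRing.norm_star_mul_self, star_mul, hsa.star_eq]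
    have e : (1 - u) * star x * (x * (1 - u)) =
        (1 - u) * y * (1 - u) + (1 - u) * (j * (1 - u)) := by
      rw [hjdef]; noncomm_ring
    rw [e]
    refine (norm_add_le _ _).trans (add_le_add ?_ ?_)
    · calc ‖(1 - u) * y * (1 - u)‖ ≤ ‖1 - u‖ * ‖y‖ * ‖1 - u‖ := norm_mul₃_le
        _ ≤ 1 * ‖y‖ * 1 := by gcongr
        _ = ‖y‖ := by ring
    · calc ‖(1 - u) * (j * (1 - u))‖ ≤ ‖1 - u‖ * ‖j * (1 - u)‖ := norm_mul_le _ _
        _ ≤ 1 * (ε / 2) := by
          gcongr
          nlinarith [norm_nonneg (j * (1 - u))]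
        _ = ε / 2 := one_mul _
  nlinarith [mul_self_le_mul_self (norm_nonneg (Ideal.Quotient.mk J x)) hle]

noncomputable instance Quot.instNormedRing : NormedRing (C ⧸ J) where
  __ := (Submodule.Quotient.normedAddCommGroup J : NormedAddCommGroup (C ⧸ J))
  __ := (inferInstance : Ring (C ⧸ J))
  norm_mul_le x y := by
    refine le_of_forall_pos_le_add fun ε hε => ?_
    set δ : ℝ := min 1 (ε / (‖x‖ + ‖y‖ + 1)) with hδ
    have hδ0 : 0 < δ := lt_min one_pos (by positivity)
    obtain ⟨a, rfl, ha⟩ := Submodule.Quotient.norm_mk_lt x hδ0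
    obtain ⟨b, rfl, hb⟩ := Submodule.Quotient.norm_mk_lt y hδ0
    refine (Submodule.Quotient.norm_mk_le J (a * b)).trans ((norm_mul_le a b).trans ?_)
    set p := ‖(Submodule.Quotient.mk a : C ⧸ J)‖
    set r := ‖(Submodule.Quotient.mk b : C ⧸ J)‖
    have hp : 0 ≤ p := norm_nonneg _
    have hr : 0 ≤ r := norm_nonneg _
    have h1 : δ * δ ≤ δ * 1 := mul_le_mul_of_nonneg_left (min_le_left _ _) hδ0.le
    have h2 : δ * (p + r + 1) ≤ ε := by
      rw [← le_div_iff₀ (by positivity)]
      exact min_le_right _ _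
    calc ‖a‖ * ‖b‖ ≤ (p + δ) * (r + δ) := by gcongr
      _ ≤ p * r + ε := by nlinarith

noncomputable instance Quot.instStarRing : StarRing (C ⧸ J) where
  star := Quotient.map' star fun a b h => by
    rw [Submodule.quotientRel_def] at h ⊢
    rw [← star_sub]
    exact ideal_star_mem J h
  star_involutive x := by
    obtain ⟨a, rfl⟩ := Ideal.Quotient.mk_surjective x
    exact congrArg (Ideal.Quotient.mk J) (star_star a)
  star_mul x y := by
    obtain ⟨a, rfl⟩ := Ideal.Quotient.mk_surjective x
    obtain ⟨b, rfl⟩ := Ideal.Quotient.mk_surjective y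
    exact congrArg (Ideal.Quotient.mk J) (star_mul a b)
  star_add x y := by
    obtain ⟨a, rfl⟩ := Ideal.Quotient.mk_surjective x
    obtain ⟨b, rfl⟩ := Ideal.Quotient.mk_surjective y
    exact congrArg (Ideal.Quotient.mk J) (star_add a b)

theorem mk_star (a : C) : star (Ideal.Quotient.mk J a) = Ideal.Quotient.mk J (star a) := rfl

noncomputable instance Quot.instCStarRing : CStarRing (C ⧸ J) where
  norm_mul_self_le x := by
    obtain ⟨a, rfl⟩ := Ideal.Quotient.mk_surjective x
    rw [mk_star, ← map_mul]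
    exact norm_mk_sq_le J a

noncomputable instance Quot.instStarModule : StarModule ℂ (C ⧸ J) where
  star_smul c x := by
    obtain ⟨a, rfl⟩ := Ideal.Quotient.mk_surjective x
    exact congrArg (Ideal.Quotient.mk J) (star_smul c a)

noncomputable instance Quot.instNormedAlgebra : NormedAlgebra ℂ (C ⧸ J) where
  __ := (inferInstance : Algebra ℂ (C ⧸ J))
  norm_smul_le c x := @norm_smul_le ℂ (C ⧸ J) _ _ _ (Submodule.Quotient.instIsBoundedSMul J ℂ) c x

noncomputable instance Quot.instCStarAlgebra : CStarAlgebra (C ⧸ J) where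
  toCompleteSpace := Submodule.Quotient.completeSpace J

/-- The quotient star homomorphism. -/
noncomputable def quotStar : C →⋆ₐ[ℂ] C ⧸ J where
  __ := Ideal.Quotient.mkₐ ℂ J
  map_star' _ := rfl

theorem quotStar_apply (a : C) : quotStar J a = Ideal.Quotient.mk J a := rfl

theorem quotStar_surjective : Function.Surjective (quotStar J) := Ideal.Quotient.mk_surjective

theorem quotStar_eq_zero {a : C} : quotStar J a = 0 ↔ a ∈ J := Ideal.Quotient.eq_zero_iff_mem

end Vale.Agent.P101
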