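import Vale.Agent.P101.Common

/-!
# P101: cutting a square-zero element, its parity unitary, Jordan-Wigner strings
-/

noncomputable section

namespace Vale.Agent.P101

set_option linter.unusedSectionVars false

variable {B : Type*} [CStarAlgebra B] [PartialOrder B] [StarOrderedRing B]

/-- An intertwiner of two self-adjoint elements intertwines their functional calculi. -/
theorem mul_cfc_comm {a b x : B} (ha : IsSelfAdjoint a) (hb : IsSelfAdjoint b) (h : x * a = b * x)
    {g : ℝ → ℝ} (hg : Continuous g) : x * cfc g a = cfc g b * x := by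
  rcases subsingleton_or_nontrivial B with hB | hB
  · exact Subsingleton.elim _ _
  set R := max ‖a‖ ‖b‖
  have hpoly : ∀ q : Polynomial ℝ, x * Polynomial.aeval a q = Polynomial.aeval b q * x := by
    intro q
    induction q using Polynomial.induction_on' with
    | add q r hq hr => rw [map_add, map_add, mul_add, add_mul, hq, hr]
    | monomial k c =>
      rw [Polynomial.aeval_monomial, Polynomial.aeval_monomial, ← mul_assoc, ← Algebra.commutes,
        mul_assoc, mul_assoc]
      have hk : SemiconjBy x (a ^ k) (b ^ k) := (show SemiconjBy x a b from h).pow_right k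
      rw [hk.eq]
  have hspec : ∀ c : B, ‖c‖ ≤ R → ∀ t ∈ spectrum ℝ c, t ∈ Set.Icc (-R) R := by
    intro c hc t ht
    have h1 := (spectrum.norm_le_norm_of_mem ht).trans hc
    rw [Real.norm_eq_abs, abs_le] at h1
    exact h1
  have key : ∀ ε > 0, ‖x * cfc g a - cfc g b * x‖ ≤ 2 * ε * ‖x‖ := by
    intro ε hε
    obtain ⟨q, hq⟩ := exists_polynomial_near_of_continuousOn (-R) R g hg.continuousOn ε hε
    have hbd : ∀ c : B, IsSelfAdjoint c → ‖c‖ ≤ R →
        ‖cfc g c - Polynomial.aeval c q‖ ≤ ε := by
      intro c hc hcR
      rw [← cfc_polynomial (R := ℝ) q c hc, ← cfc_sub g q.eval c]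
      refine norm_cfc_le hε.le fun t ht => ?_
      rw [Real.norm_eq_abs, abs_sub_comm]
      exact (hq t (hspec c hcR t ht)).le
    have e : x * cfc g a - cfc g b * x = x * (cfc g a - Polynomial.aeval a q) -
        (cfc g b - Polynomial.aeval b q) * x := by
      rw [mul_sub, sub_mul, hpoly]
      abel
    rw [e]
    refine (norm_sub_le _ _).trans ?_
    have h1 := (norm_mul_le x (cfc g a - Polynomial.aeval a q)).trans
      (mul_le_mul_of_nonneg_left (hbd a ha (le_max_left _ _)) (norm_nonneg x))
    have h2 := (norm_mul_le (cfc g b - Polynomial.aeval b q) x).trans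
      (mul_le_mul_of_nonneg_right (hbd b hb (le_max_right _ _)) (norm_nonneg x))
    linarith
  rw [← sub_eq_zero, ← norm_le_zero_iff]
  refine le_of_forall_pos_le_add fun ε hε => ?_
  have hx : 0 < 2 * ‖x‖ + 1 := by positivity
  calc ‖x * cfc g a - cfc g b * x‖ ≤ 2 * (ε / (2 * ‖x‖ + 1)) * ‖x‖ := key _ (div_pos hε hx)
    _ ≤ ε := by
      rw [show 2 * (ε / (2 * ‖x‖ + 1)) * ‖x‖ = ε * ((2 * ‖x‖) / (2 * ‖x‖ + 1)) by ring]
      exact mul_le_of_le_one_right hε.le ((div_le_one hx).2 (by linarith))
    _ = 0 + ε := (zero_add ε).symm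

theorem star_cfc_real (f : ℝ → ℝ) (a : B) : star (cfc f a) = cfc f a :=
  (IsSelfAdjoint.cfc (f := f) (a := a)).star_eq

/-- If `x * b = 0` then `x * g b = g 0 • x`. -/
theorem mul_cfc_of_mul_eq_zero {b x : B} (hb : IsSelfAdjoint b) (h : x * b = 0)
    {g : ℝ → ℝ} (hg : Continuous g) : x * cfc g b = g 0 • x := by
  rw [mul_cfc_comm hb (IsSelfAdjoint.zero B) (by rw [h, zero_mul]) hg, cfc_apply_zero,
    Algebra.smul_def]

/-- If `a * x = 0` then `g a * x = g 0 • x`. -/
theorem cfc_mul_of_mul_eq_zero {a x : B} (ha : IsSelfAdjoint a) (h : a * x = 0)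
    {g : ℝ → ℝ} (hg : Continuous g) : cfc g a * x = g 0 • x := by
  have h1 := mul_cfc_of_mul_eq_zero (x := star x) ha
    (by rw [← ha.star_eq, ← star_mul, h, star_zero]) hg
  have h2 := congrArg star h1
  rwa [star_mul, star_cfc_real g a, star_star, star_smul, star_star, star_trivial] at h2

/-- The ramp from `η` to `2η`. -/
def ramp (η t : ℝ) : ℝ := min (max (t / η - 1) 0) 1

/-- The ramp from `0` to `η`. -/
def ramp₀ (η t : ℝ) : ℝ := min (max (t / η) 0) 1

theorem continuous_ramp (η : ℝ) : Continuous (ramp η) := by unfold ramp; fun_prop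

theorem continuous_ramp₀ (η : ℝ) : Continuous (ramp₀ η) := by unfold ramp₀; fun_prop

theorem ramp_zero (η : ℝ) : ramp η 0 = 0 := by simp [ramp]

theorem ramp₀_zero (η : ℝ) : ramp₀ η 0 = 0 := by simp [ramp₀]

theorem ramp_nonneg (η t : ℝ) : 0 ≤ ramp η t := le_min (le_max_right _ _) zero_le_one

theorem ramp_le_one (η t : ℝ) : ramp η t ≤ 1 := min_le_right _ _

theorem ramp₀_eq_one {η t : ℝ} (hη : 0 < η) (h : ramp η t ≠ 0) : ramp₀ η t = 1 := by
  have ht : η < t := by
    by_contra hc
    push Not at hc
    refine h ?_
    have : t / η - 1 ≤ 0 := by rw [sub_nonpos, div_le_one hη]; exact hc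
    simp [ramp, max_eq_right this]
  have : 1 ≤ t / η := (one_le_div hη).2 ht.le
  simp [ramp₀, this]

/-- The cut of an element. -/
def cut (η : ℝ) (x : B) : B := x * cfc (ramp η) (star x * x)

/-- The parity unitary of the cut. -/
def parity (η : ℝ) (x : B) : B :=
  cfc (fun t => Real.cos (Real.pi * ramp₀ η t)) (x * star x) +
    Complex.I • cfc (fun t => Real.sin (Real.pi * ramp₀ η t)) (x * star x)

theorem cut_eq (η : ℝ) (x : B) : cut η x = cfc (ramp η) (x * star x) * x :=
  mul_cfc_comm (IsSelfAdjoint.star_mul_self x) (IsSelfAdjoint.mul_star_self x)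
    (mul_assoc x (star x) x).symm (continuous_ramp η)

theorem star_mul_cut (η : ℝ) (x : B) :
    star (cut η x) * cut η x = cfc (fun t => ramp η t * t * ramp η t) (star x * x) := by
  have ha : IsSelfAdjoint (star x * x) := IsSelfAdjoint.star_mul_self x
  have hc := continuous_ramp η
  rw [cut, star_mul, star_cfc_real,
    cfc_mul (fun t => ramp η t * t) (ramp η) _,
    cfc_mul (ramp η) (fun t => t) _, cfc_id' ℝ (star x * x)]
  noncomm_ring

theorem cut_sq (η : ℝ) {x : B} (hx : x * x = 0) : cut η x * cut η x = 0 := by
  have h : cfc (ramp η) (star x * x) * x = 0 := by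
    rw [cfc_mul_of_mul_eq_zero (IsSelfAdjoint.star_mul_self x)
      (by rw [mul_assoc, hx, mul_zero]) (continuous_ramp η), ramp_zero, zero_smul]
  rw [cut, mul_assoc, ← mul_assoc (cfc (ramp η) (star x * x)), h, zero_mul, mul_zero]

theorem star_parity_mul (η : ℝ) (x : B) : star (parity η x) * parity η x = 1 := by
  have hc : Continuous fun t => Real.cos (Real.pi * ramp₀ η t) :=
    Real.continuous_cos.comp ((continuous_ramp₀ η).const_mul _)
  have hs : Continuous fun t => Real.sin (Real.pi * ramp₀ η t) :=
    Real.continuous_sin.comp ((continuous_ramp₀ η).const_mul _)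
  have hb : IsSelfAdjoint (x * star x) := IsSelfAdjoint.mul_star_self x
  have h1 : cfc (fun t => Real.cos (Real.pi * ramp₀ η t) * Real.cos (Real.pi * ramp₀ η t) +
      Real.sin (Real.pi * ramp₀ η t) * Real.sin (Real.pi * ramp₀ η t)) (x * star x) = 1 := by
    rw [show (fun t => Real.cos (Real.pi * ramp₀ η t) * Real.cos (Real.pi * ramp₀ η t) +
      Real.sin (Real.pi * ramp₀ η t) * Real.sin (Real.pi * ramp₀ η t)) = fun _ : ℝ => (1 : ℝ) from
        funext fun t => by rw [← sq, ← sq, Real.cos_sq_add_sin_sq]]
    exact cfc_const_one ℝ _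
  rw [cfc_add (x * star x) (fun t => Real.cos (Real.pi * ramp₀ η t) * Real.cos (Real.pi * ramp₀ η t))
      (fun t => Real.sin (Real.pi * ramp₀ η t) * Real.sin (Real.pi * ramp₀ η t))
      (hc.mul hc).continuousOn (hs.mul hs).continuousOn,
    cfc_mul _ _ _ hc.continuousOn hc.continuousOn, cfc_mul _ _ _ hs.continuousOn hs.continuousOn] at h1
  have hcs : Commute (cfc (fun t => Real.cos (Real.pi * ramp₀ η t)) (x * star x))
      (cfc (fun t => Real.sin (Real.pi * ramp₀ η t)) (x * star x)) := cfc_commute_cfc _ _ _
  unfold parity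
  rw [star_add, star_smul, star_cfc_real,
    star_cfc_real, Complex.star_def, Complex.conj_I]
  simp only [add_mul, mul_add, smul_mul_assoc, mul_smul_comm, neg_smul, neg_mul,
    smul_add, smul_neg, smul_smul, Complex.I_mul_I, neg_neg]
  rw [← hcs.eq, ← h1]
  abel_nf
  simp

theorem parity_mem_unitary (η : ℝ) (x : B) : parity η x ∈ unitary B := by
  refine Unitary.mem_iff.2 ⟨star_parity_mul η x, ?_⟩
  have hcs : Commute (cfc (fun t => Real.cos (Real.pi * ramp₀ η t)) (x * star x))
      (cfc (fun t => Real.sin (Real.pi * ramp₀ η t)) (x * star x)) := cfc_commute_cfc _ _ _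
  have hcomm : Commute (star (parity η x)) (parity η x) := by
    unfold parity
    rw [star_add, star_smul, star_cfc_real,
      star_cfc_real]
    refine Commute.add_left ?_ ?_ <;> refine Commute.add_right ?_ ?_
    · exact Commute.refl _
    · exact hcs.smul_right _
    · exact hcs.symm.smul_left _
    · exact ((Commute.refl _).smul_left _).smul_right _
  rw [← hcomm.eq]
  exact star_parity_mul η x

/-- The cut of a square-zero element with its parity is an odd pair. -/
theorem oddPair_cut {η : ℝ} (hη : 0 < η) {x : B} (hx : x * x = 0) :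
    OddPair (cut η x) (parity η x) := by
  have hc : Continuous fun t => Real.cos (Real.pi * ramp₀ η t) :=
    Real.continuous_cos.comp ((continuous_ramp₀ η).const_mul _)
  have hs : Continuous fun t => Real.sin (Real.pi * ramp₀ η t) :=
    Real.continuous_sin.comp ((continuous_ramp₀ η).const_mul _)
  have hb : IsSelfAdjoint (x * star x) := IsSelfAdjoint.mul_star_self x
  refine ⟨cut_sq η hx, parity_mem_unitary η x, ?_, ?_⟩
  · rw [cut_eq, ← mul_assoc]
    have e : parity η x * cfc (ramp η) (x * star x) = -cfc (ramp η) (x * star x) := by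
      rw [parity, add_mul, smul_mul_assoc,
        ← cfc_mul _ _ _ hc.continuousOn (continuous_ramp η).continuousOn,
        ← cfc_mul _ _ _ hs.continuousOn (continuous_ramp η).continuousOn]
      have h1 : (fun t => Real.cos (Real.pi * ramp₀ η t) * ramp η t) = fun t => -ramp η t := by
        funext t
        by_cases h : ramp η t = 0
        · simp [h]
        · simp [ramp₀_eq_one hη h]
      have h2 : (fun t => Real.sin (Real.pi * ramp₀ η t) * ramp η t) = fun _ => (0 : ℝ) := by
        funext t
        by_cases h : ramp η t = 0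
        · simp [h]
        · simp [ramp₀_eq_one hη h]
      rw [h1, h2, cfc_neg, cfc_const_zero, smul_zero, add_zero]
    rw [e, neg_mul]
  · rw [cut_eq, mul_assoc]
    have e : x * parity η x = x := by
      rw [parity, mul_add, mul_smul_comm,
        mul_cfc_of_mul_eq_zero hb (by rw [← mul_assoc, hx, zero_mul]) hc,
        mul_cfc_of_mul_eq_zero hb (by rw [← mul_assoc, hx, zero_mul]) hs]
      simp [ramp₀_zero]
    rw [e]

/-- The weight of the cut. -/
theorem le_star_mul_cut {η : ℝ} (hη : 0 < η) (x : B) :
    star x * x - algebraMap ℝ B (2 * η) ≤ star (cut η x) * cut η x := by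
  have ha : IsSelfAdjoint (star x * x) := IsSelfAdjoint.star_mul_self x
  have hc := continuous_ramp η
  rw [star_mul_cut]
  conv_lhs => rw [← cfc_id' ℝ (star x * x), ← cfc_const (2 * η) (star x * x),
    ← cfc_sub (fun t : ℝ => t) (fun _ => 2 * η) (star x * x) (by fun_prop) (by fun_prop)]
  refine cfc_mono fun t ht => ?_
  have ht0 : 0 ≤ t := spectrum_nonneg_of_nonneg (star_mul_self_nonneg x) ht
  rcases le_or_gt t (2 * η) with h | h
  · have := ramp_nonneg η t
    nlinarith [mul_nonneg (mul_nonneg this ht0) this]
  · have : ramp η t = 1 := by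
      have h2 : 1 ≤ t / η - 1 := by rw [le_sub_iff_add_le, le_div_iff₀ hη]; linarith
      simp [ramp, h2]
    rw [this]; linarith

theorem norm_cut_le (η : ℝ) {x : B} (hx : ‖x‖ ≤ 1) : ‖cut η x‖ ≤ 1 := by
  refine (norm_mul_le _ _).trans (mul_le_one₀ hx (norm_nonneg _) ?_)
  exact norm_cfc_le zero_le_one fun t _ => by
    rw [Real.norm_eq_abs, abs_of_nonneg (ramp_nonneg η t)]; exact ramp_le_one η t

/-- Whatever *-commutes with `x` *-commutes with its cut and parity. -/
theorem StarCommute.cut_parity (η : ℝ) {y x : B} (h : StarCommute y x) :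
    StarCommute y (cut η x) ∧ StarCommute y (parity η x) := by
  obtain ⟨h1, h2⟩ := h
  have ha : Commute y (star x * x) := h2.mul_right h1
  have hb : Commute y (x * star x) := h1.mul_right h2
  have hA : ∀ f : ℝ → ℝ, Commute y (cfc f (star x * x)) := fun f => (ha.symm.cfc_real f).symm
  have hB : ∀ f : ℝ → ℝ, Commute y (cfc f (x * star x)) := fun f => (hb.symm.cfc_real f).symm
  refine ⟨⟨?_, ?_⟩, ?_, ?_⟩
  · exact h1.mul_right (hA _)
  · rw [cut, star_mul, star_cfc_real]
    exact (hA _).mul_right h2
  · exact (hB _).add_right ((hB _).smul_right _)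
  · rw [parity, star_add, star_smul, star_cfc_real,
      star_cfc_real]
    exact (hB _).add_right ((hB _).smul_right _)

namespace OddPair

variable {x U : B}

theorem star_mul_left (h : OddPair x U) : star U * x = -x := by
  have h1 : x = -(U * x) := by rw [h.left, neg_neg]
  conv_lhs => rw [h1, mul_neg, ← mul_assoc, Unitary.star_mul_self_of_mem h.unit, one_mul]

theorem mul_star_right (h : OddPair x U) : x * star U = x := by
  conv_lhs => rw [← h.right, mul_assoc, Unitary.mul_star_self_of_mem h.unit, mul_one]

theorem left_star (h : OddPair x U) : U * star x = star x := by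
  rw [← star_star U, ← star_mul, h.mul_star_right]

theorem right_star (h : OddPair x U) : star x * U = -star x := by
  rw [← star_star U, ← star_mul, h.star_mul_left, star_neg]

theorem star_sq (h : OddPair x U) : star x * star x = 0 := by
  rw [← star_mul, h.sq, star_zero]

theorem commute_weight (h : OddPair x U) : Commute U (star x * x + x * star x) := by
  show U * _ = _ * U
  rw [mul_add, add_mul, ← mul_assoc, h.left_star, ← mul_assoc, h.left, mul_assoc (star x) x U,
    h.right, mul_assoc x (star x) U, h.right_star, neg_mul, mul_neg]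

theorem commute_weight_self (h : OddPair x U) : Commute x (star x * x + x * star x) := by
  show x * _ = _ * x
  rw [mul_add, add_mul, ← mul_assoc x x (star x), h.sq, zero_mul, add_zero,
    mul_assoc (star x) x x, h.sq, mul_zero, zero_add, mul_assoc]

end OddPair

/-- The Jordan-Wigner strings. -/
def jw : {m : ℕ} → (Fin m → B) → (Fin m → B) → Fin m → B
  | 0, _, _ => Fin.elim0
  | _ + 1, x, U => Fin.cons (x 0) fun s => U 0 * jw (Fin.tail x) (Fin.tail U) s

/-- Canonical anticommutation relations with self-adjoint central weights `u`. -/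
structure IsCAR {ι : Type*} [DecidableEq ι] (z u : ι → B) : Prop where
  anti : ∀ s t, z s * z t + z t * z s = 0
  weight : ∀ s t, star (z s) * z t + z t * star (z s) = if s = t then u s else 0
  comm : ∀ s t, Commute (u s) (z t)

theorem commute_jw {y : B} : ∀ {m : ℕ} (x U : Fin m → B), (∀ s, Commute y (x s)) →
    (∀ s, Commute y (U s)) → ∀ s, Commute y (jw x U s) := by
  intro m
  induction m with
  | zero => exact fun _ _ _ _ s => s.elim0
  | succ m ih =>
    intro x U hx hU s
    induction s using Fin.cases with
    | zero => simpa [jw] using hx 0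
    | succ s =>
      simp only [jw, Fin.cons_succ]
      exact (hU 0).mul_right (ih _ _ (fun t => hx t.succ) (fun t => hU t.succ) s)

/-- Jordan-Wigner strings of pairwise *-commuting odd pairs satisfy the CAR. -/
theorem isCAR_jw : ∀ {m : ℕ} (x U : Fin m → B), (∀ s, OddPair (x s) (U s)) →
    (∀ s t, s ≠ t → StarCommute (x s) (x t) ∧ StarCommute (x s) (U t) ∧ StarCommute (U s) (U t)) →
    IsCAR (jw x U) fun s => star (x s) * x s + x s * star (x s) := by
  intro m
  induction m with
  | zero => exact fun _ _ _ _ => ⟨fun s => s.elim0, fun s => s.elim0, fun s => s.elim0⟩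
  | succ m ih =>
    intro x U hp hc
    have hne : ∀ t : Fin m, (0 : Fin (m + 1)) ≠ t.succ := fun t => (Fin.succ_ne_zero t).symm
    obtain ⟨hanti, hweight, hcomm⟩ := ih (Fin.tail x) (Fin.tail U) (fun s => hp s.succ)
      (fun s t h => hc s.succ t.succ fun e => h (Fin.succ_injective _ e))
    set z := jw (Fin.tail x) (Fin.tail U)
    have hz : ∀ y : B, (∀ t : Fin m, Commute y (x t.succ)) → (∀ t : Fin m, Commute y (U t.succ)) →
        ∀ t, Commute y (z t) := fun y h1 h2 => commute_jw _ _ h1 h2
    have hx : ∀ t, Commute (x 0) (z t) :=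
      hz _ (fun t => (hc 0 _ (hne t)).1.1) (fun t => (hc 0 _ (hne t)).2.1.1)
    have hxs : ∀ t, Commute (star (x 0)) (z t) := hz _
      (fun t => ((hc t.succ 0 (hne t).symm).1.2).symm)
      (fun t => by simpa using ((hc 0 _ (hne t)).2.1.2).star_star)
    have hU : ∀ t, Commute (U 0) (z t) :=
      hz _ (fun t => ((hc t.succ 0 (hne t).symm).2.1.1).symm)
        (fun t => (hc 0 _ (hne t)).2.2.1)
    have hUs : ∀ t, Commute (star (U 0)) (z t) := hz _
      (fun t => ((hc t.succ 0 (hne t).symm).2.1.2).symm)
      (fun t => ((hc t.succ 0 (hne t).symm).2.2.2).symm)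
    have hxz : ∀ t, Commute (x 0) (star (z t)) := fun t => by simpa using (hxs t).star_star
    have hUz : ∀ t, Commute (U 0) (star (z t)) := fun t => by simpa using (hUs t).star_star
    have hp0 := hp 0
    refine ⟨fun s t => ?_, fun s t => ?_, fun s t => ?_⟩
    · induction s using Fin.cases with
      | zero =>
        induction t using Fin.cases with
        | zero => simp [jw, hp0.sq]
        | succ t =>
          simp only [jw, Fin.cons_zero, Fin.cons_succ]
          rw [← mul_assoc, hp0.right, mul_assoc (U 0), ← (hx t).eq, ← mul_assoc, hp0.left, neg_mul]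
          abel
      | succ s =>
        induction t using Fin.cases with
        | zero =>
          simp only [jw, Fin.cons_zero, Fin.cons_succ]
          rw [← mul_assoc, hp0.right, mul_assoc (U 0), ← (hx s).eq, ← mul_assoc, hp0.left, neg_mul]
          abel
        | succ t =>
          simp only [jw, Fin.cons_succ]
          rw [(hU s).symm.mul_mul_mul_comm, (hU t).symm.mul_mul_mul_comm, ← mul_add, hanti, mul_zero]
    · induction s using Fin.cases with
      | zero =>
        induction t using Fin.cases with
        | zero => simp [jw]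
        | succ t =>
          simp only [jw, Fin.cons_zero, Fin.cons_succ]
          rw [if_neg (hne t), ← mul_assoc, hp0.right_star, mul_assoc (U 0), ← (hxs t).eq, ← mul_assoc,
            hp0.left_star, neg_mul, neg_add_cancel]
      | succ s =>
        induction t using Fin.cases with
        | zero =>
          simp only [jw, Fin.cons_zero, Fin.cons_succ]
          rw [show jw (Fin.tail x) (Fin.tail U) s = z s from rfl, if_neg (Fin.succ_ne_zero s),
            star_mul, mul_assoc, hp0.star_mul_left, mul_neg, ← mul_assoc (x 0), (hxz s).eq,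
            mul_assoc (star (z s)), hp0.mul_star_right, neg_add_cancel]
        | succ t =>
          simp only [jw, Fin.cons_succ, Fin.succ_inj]
          have e1 : star (U 0 * z s) * (U 0 * z t) = star (z s) * z t := by
            rw [star_mul, mul_assoc, ← mul_assoc (star (U 0)),
              Unitary.star_mul_self_of_mem hp0.unit, one_mul]
          have e2 : U 0 * z t * star (U 0 * z s) = z t * star (z s) := by
            rw [star_mul, ← mul_assoc, mul_assoc (U 0), ((hU t).mul_right (hUz s)).eq, mul_assoc,
              Unitary.mul_star_self_of_mem hp0.unit, mul_one]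
          rw [e1, e2]
          exact hweight s t
    · induction s using Fin.cases with
      | zero =>
        induction t using Fin.cases with
        | zero => simpa [jw] using hp0.commute_weight_self.symm
        | succ t =>
          simp only [jw, Fin.cons_succ]
          exact hp0.commute_weight.symm.mul_right
            (((hxs t).mul_left (hx t)).add_left ((hx t).mul_left (hxs t)))
      | succ s =>
        induction t using Fin.cases with
        | zero =>
          simp only [jw, Fin.cons_zero]
          have h := hc s.succ 0 (hne s).symm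
          have h' := hc 0 s.succ (hne s)
          exact (((h'.1.2).symm).mul_left ((h'.1.1).symm)).add_left
            (((h'.1.1).symm).mul_left ((h'.1.2).symm))
        | succ t =>
          simp only [jw, Fin.cons_succ]
          have h := hc s.succ 0 (hne s).symm
          have hUs' : Commute (star (x s.succ)) (U 0) := by simpa using h.2.1.2.star_star
          exact ((hUs'.mul_left h.2.1.1).add_left (h.2.1.1.mul_left hUs')).mul_right (hcomm s t)

end Vale.Agent.P101

end
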