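import Vale.Agent.P101.Common
import Vale.Agent.P101.OddPair

/-!
# P101: many orthogonal full elements, and one full square-zero piece

`orthN_of_orth`: products over blocks turn two orthogonal full elements into any number of them.
`piece_of_orthN`: if `w_j` are orthogonal and full and commute with the slot `x_0`, then
`z = ∑ x_{0,j} w_j` is square-zero and `star z * z` is full; a cut of it is an odd pair whose
weight `e = z*z + zz* ≤ 1` has `(e - 3/4)₊` full.
-/

noncomputable section

namespace Vale.Agent.P101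

universe u

section Aux

variable {A : Type u} [CStarAlgebra A] [PartialOrder A] [StarOrderedRing A]

/-- Fullness survives a small perturbation from below, with the same bound. -/
theorem FullBy.exists_pos {k : ℕ} {a : A} (h : FullBy k a) :
    ∃ κ : ℝ, 0 < κ ∧ ∀ (b : A) (C : ℝ), 0 < C → a - algebraMap ℝ A κ ≤ C • b → FullBy k b := by
  obtain ⟨c, hc⟩ := h
  set S := ∑ i, star (c i) * c i with hS
  set κ : ℝ := 1 / (2 * (‖S‖ + 1)) with hκ
  have hκ0 : 0 < κ := by positivity
  refine ⟨κ, hκ0, fun b C hC hab => ?_⟩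
  have hS0 : IsSelfAdjoint S :=
    IsSelfAdjoint.of_nonneg (Finset.sum_nonneg fun i _ => star_mul_self_nonneg (c i))
  have h1 : (1 : A) ≤ C • (∑ i, star (c i) * b * c i) + κ • S := by
    rw [← hc, hS, Finset.smul_sum, Finset.smul_sum, ← Finset.sum_add_distrib]
    refine Finset.sum_le_sum fun i _ => ?_
    refine (star_left_conjugate_le_conjugate (sub_le_iff_le_add.1 hab) (c i)).trans
      (le_of_eq ?_)
    simp [Algebra.algebraMap_eq_smul_one, mul_add, add_mul]
  have h2 : κ • S ≤ algebraMap ℝ A (1 / 2) := by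
    calc κ • S ≤ κ • algebraMap ℝ A ‖S‖ :=
          smul_le_smul_of_nonneg_left hS0.le_algebraMap_norm_self hκ0.le
      _ = algebraMap ℝ A (κ * ‖S‖) := by rw [Algebra.smul_def, ← map_mul]
      _ ≤ algebraMap ℝ A (1 / 2) := by
          refine algebraMap_mono A ?_
          rw [hκ, div_mul_eq_mul_div, div_le_div_iff₀ (by positivity) (by norm_num)]
          linarith
  refine fullBy_of_algebraMap_le (ε := 1 / (2 * C)) (by positivity) c ?_
  have h3 : (1 : A) ≤ C • (∑ i, star (c i) * b * c i) + algebraMap ℝ A (1 / 2) :=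
    h1.trans (add_le_add le_rfl h2)
  have h4 : algebraMap ℝ A (1 / 2) ≤ C • (∑ i, star (c i) * b * c i) := by
    have h5 := sub_le_iff_le_add.2 h3
    have e : (1 : A) - algebraMap ℝ A (1 / 2) = algebraMap ℝ A (1 / 2) := by
      rw [← map_one (algebraMap ℝ A), ← map_sub]; norm_num
    rwa [e] at h5
  have h6 := smul_le_smul_of_nonneg_left h4 (inv_nonneg.2 hC.le)
  rw [smul_smul, inv_mul_cancel₀ hC.ne', one_smul, Algebra.smul_def, ← map_mul] at h6
  convert h6 using 2
  field_simp

/-- The square of a self-adjoint full element is full, with the same bound. -/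
theorem FullBy.mul_self {k : ℕ} {a : A} (ha : IsSelfAdjoint a) (h : FullBy k a) :
    FullBy k (a * a) := by
  obtain ⟨κ, hκ, hb⟩ := h.exists_pos
  refine hb (a * a) (1 / (4 * κ)) (by positivity) ?_
  have e1 : a - algebraMap ℝ A κ = cfc (fun t : ℝ => t - κ) a := by
    rw [cfc_sub (fun t : ℝ => t) (fun _ => κ) a continuousOn_id continuousOn_const,
      cfc_id' ℝ a ha, cfc_const κ a ha]
  have e2 : (1 / (4 * κ)) • (a * a) = cfc (fun t : ℝ => 1 / (4 * κ) * (t * t)) a := by
    rw [cfc_const_mul (1 / (4 * κ)) (fun t : ℝ => t * t) a (by fun_prop),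
      cfc_mul (fun t : ℝ => t) (fun t : ℝ => t) a continuousOn_id continuousOn_id,
      cfc_id' ℝ a ha]
  rw [e1, e2]
  refine cfc_mono (fun t _ => ?_) (by fun_prop) (by fun_prop)
  rw [div_mul_eq_mul_div, one_mul, le_div_iff₀ (by positivity)]
  nlinarith [sq_nonneg (t - 2 * κ)]

end Aux

/-- Any number of pairwise orthogonal full elements. -/
theorem orthN_of_orth (h : OrthStatement.{u}) : OrthNStatement.{u} := by
  intro N r δ hδ
  obtain ⟨m, k, hm⟩ := h N δ hδ
  induction r with
  | zero => exact ⟨0, 0, fun B _ _ _ X _ =>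
      ⟨Fin.elim0, fun j => j.elim0, fun i => i.elim0, fun j => j.elim0⟩⟩
  | succ r ih =>
    obtain ⟨m', k', hm'⟩ := ih
    refine ⟨m + m', k + k * k', fun B _ _ _ X hX => ?_⟩
    set T₁ : Set (Fin (m + m')) := Set.range (Fin.castAdd m') with hT₁
    set T₂ : Set (Fin (m + m')) := Set.range (Fin.natAdd m) with hT₂
    have hd : Disjoint T₁ T₂ := by
      rw [Set.disjoint_left]
      rintro _ ⟨i, rfl⟩ ⟨i', hi'⟩
      have := congrArg Fin.val hi'
      simp only [Fin.val_natAdd, Fin.val_castAdd] at this
      omega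
    have hX₁ := (hX.comp (Fin.castAdd m') (Fin.castAdd_injective m m')).codRestrict (gen X T₁)
      fun s j => slot_mem_gen (T := T₁) ⟨s, rfl⟩ j
    have hX₂ := (hX.comp (Fin.natAdd m) (Fin.natAdd_injective m' m)).codRestrict (gen X T₂)
      fun s j => slot_mem_gen (T := T₂) ⟨s, rfl⟩ j
    obtain ⟨f, g, hf, hg, hfg, hfk, hgk⟩ := hm _ _ hX₁
    obtain ⟨w, hw, hworth, hwk⟩ := hm' _ _ hX₂
    have hcomm : ∀ s ∈ gen X T₁, ∀ t ∈ gen X T₂, Commute s t := fun s hs t ht =>
      (starCommute_gen hX hd hs ht).1
    have hgw : ∀ i, Commute (g : B) (w i : B) := fun i => hcomm _ g.2 _ (w i).2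
    have hfg' : (f : B) * g = 0 := congrArg Subtype.val hfg
    have hgf' : (g : B) * f = 0 := by
      have := congrArg star hfg'
      rwa [star_mul, star_zero, (IsSelfAdjoint.of_nonneg (show (0 : B) ≤ f from hf)).star_eq,
        (IsSelfAdjoint.of_nonneg (show (0 : B) ≤ g from hg)).star_eq] at this
    refine ⟨Fin.cons (f : B) fun i => (g : B) * (w i : B), fun j => ?_, fun i j hij => ?_,
      fun j => ?_⟩
    · induction j using Fin.cases with
      | zero => simpa using (show (0 : B) ≤ f from hf)
      | succ j => simpa using Commute.mul_nonneg (show (0 : B) ≤ g from hg) (show (0 : B) ≤ w j from hw j) (hgw j)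
    · induction i using Fin.cases with
      | zero =>
        induction j using Fin.cases with
        | zero => exact absurd rfl hij
        | succ j => simp only [Fin.cons_zero, Fin.cons_succ]; rw [← mul_assoc, hfg', zero_mul]
      | succ i =>
        induction j using Fin.cases with
        | zero =>
          simp only [Fin.cons_zero, Fin.cons_succ]
          rw [mul_assoc, ← (hcomm _ f.2 _ (w i).2).eq, ← mul_assoc, hgf', zero_mul]
        | succ j =>
          simp only [Fin.cons_succ]
          have h0 : (w i : B) * w j = 0 :=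
            congrArg Subtype.val (hworth i j fun e => hij (by rw [e]))
          rw [mul_assoc, ← mul_assoc (w i : B), ← (hgw i).eq, mul_assoc (g : B), h0, mul_zero,
            mul_zero]
    · induction j using Fin.cases with
      | zero => simpa using (hfk.map (gen X T₁).subtype).mono (Nat.le_add_right k (k * k'))
      | succ j =>
        simp only [Fin.cons_succ]
        exact (FullBy.mul_commuting (gen X T₁) (gen X T₂) hcomm g.2 (w j).2 hgk.exists_mem
          (hwk j).exists_mem).mono (Nat.le_add_left _ _)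

section Piece

variable {B : Type u} [CStarAlgebra B] [PartialOrder B] [StarOrderedRing B]

/-- The normalised cut of a square-zero element with full `star x * x`. -/
theorem exists_piece {k : ℕ} {x : B} (hx : x * x = 0) (hfull : FullBy k (star x * x)) :
    ∃ z U : B, OddPair z U ∧ star z * z + z * star z ≤ 1 ∧
      FullBy k (cfc (fun t : ℝ => max (t - 3 / 4) 0) (star z * z + z * star z)) := by
  obtain ⟨κ', hκ', hb⟩ := hfull.exists_pos
  set κ := κ' / 2 with hκdef
  have hκ : 0 < κ := by rw [hκdef]; linarith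
  set a := star x * x with ha_def
  set b := x * star x with hb_def
  have ha : IsSelfAdjoint a := IsSelfAdjoint.star_mul_self x
  have hbs : IsSelfAdjoint b := IsSelfAdjoint.mul_star_self x
  have ha0 : 0 ≤ a := star_mul_self_nonneg x
  have hb0 : 0 ≤ b := mul_star_self_nonneg x
  have hab : a * b = 0 := by
    rw [ha_def, hb_def, mul_assoc, ← mul_assoc x x, hx, zero_mul, mul_zero]
  have hba : b * x = x * a := mul_assoc x (star x) x
  let s : ℝ → ℝ := fun t => (√(max t κ))⁻¹
  have hs : Continuous s := by
    refine Continuous.inv₀ (by fun_prop) fun t => Real.sqrt_ne_zero'.2 ?_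
    have := le_max_right t κ
    linarith
  let r : ℝ → ℝ := fun t => s t * ramp κ t
  have hr : Continuous r := hs.mul (continuous_ramp κ)
  have hr0 : r 0 = 0 := by simp [r, ramp_zero]
  let g : ℝ → ℝ := fun t => r t * t * r t
  have hg : Continuous g := (hr.mul continuous_id).mul hr
  have hg0 : g 0 = 0 := by simp [g]
  set z := x * cfc r a with hz
  have hzb : z = cfc r b * x := mul_cfc_comm ha hbs hba.symm hr
  have hzcut : z = cfc s b * cut κ x := by
    rw [cut_eq, ← mul_assoc, ← cfc_mul s (ramp κ) b hs.continuousOn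
      (continuous_ramp κ).continuousOn, hzb]
  have hzz : z * z = 0 := by
    have : cfc r a * x = 0 := by
      rw [cfc_mul_of_mul_eq_zero ha (by rw [ha_def, mul_assoc, hx, mul_zero]) hr, hr0, zero_smul]
    rw [hz, mul_assoc, ← mul_assoc (cfc r a), this, zero_mul, mul_zero]
  have hsandwich : ∀ c : B, IsSelfAdjoint c → cfc r c * c * cfc r c = cfc g c := fun c hc => by
    show _ = cfc (fun t => r t * t * r t) c
    rw [cfc_mul (fun t => r t * t) r c (hr.mul continuous_id).continuousOn hr.continuousOn,
      cfc_mul r (fun t => t) c hr.continuousOn continuousOn_id, cfc_id' ℝ c hc]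
  have hga : star z * z = cfc g a := by
    rw [← hsandwich a ha, hz, star_mul, star_cfc_real, ha_def]
    noncomm_ring
  have hgb : z * star z = cfc g b := by
    rw [← hsandwich b hbs, hzb, star_mul, star_cfc_real, hb_def]
    noncomm_ring
  -- the function `g` takes values in `[0, 1]` and is `1` from `2κ` on
  have hg01 : ∀ t, 0 ≤ t → 0 ≤ g t ∧ g t ≤ 1 := fun t ht => by
    have h1 : r t * t * r t = t / max t κ * (ramp κ t * ramp κ t) := by
      have hm : 0 ≤ max t κ := le_max_of_le_left ht
      calc r t * t * r t = t * ((√(max t κ))⁻¹ * (√(max t κ))⁻¹) * (ramp κ t * ramp κ t) := by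
            simp only [r, s]; ring
        _ = _ := by rw [← mul_inv, Real.mul_self_sqrt hm, div_eq_mul_inv]
    have h2 : t / max t κ ≤ 1 := (div_le_one (lt_max_of_lt_right hκ)).2 (le_max_left _ _)
    have h3 : 0 ≤ t / max t κ := div_nonneg ht (le_max_of_le_left ht)
    have h4 : ramp κ t * ramp κ t ≤ 1 :=
      mul_le_one₀ (ramp_le_one κ t) (ramp_nonneg κ t) (ramp_le_one κ t)
    exact ⟨by show 0 ≤ r t * t * r t; rw [h1]; exact mul_nonneg h3 (mul_self_nonneg _),
      by show r t * t * r t ≤ 1; rw [h1]; exact mul_le_one₀ h2 (mul_self_nonneg _) h4⟩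
  have hg1 : ∀ t, 2 * κ ≤ t → g t = 1 := fun t ht => by
    have h2 : 1 ≤ t / κ - 1 := by rw [le_sub_iff_add_le, le_div_iff₀ hκ]; linarith
    have hramp : ramp κ t = 1 := by simp [ramp, h2]
    show r t * t * r t = 1
    simp only [r, s, hramp, mul_one]
    rw [max_eq_left (by linarith), mul_comm (√t)⁻¹ t, mul_assoc, ← mul_inv,
      Real.mul_self_sqrt (by linarith), mul_inv_cancel₀ (by linarith : t ≠ 0)]
  have hgab : cfc g a * cfc g b = 0 := by
    have h1 : cfc g a * b = 0 := by rw [cfc_mul_of_mul_eq_zero ha hab hg, hg0, zero_smul]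
    rw [mul_cfc_of_mul_eq_zero hbs h1 hg, hg0, zero_smul]
  have hle : ∀ c : B, 0 ≤ c → 0 ≤ 1 - cfc g c := fun c hc => by
    rw [sub_nonneg]
    exact cfc_le_one g c fun t ht => (hg01 t (spectrum_nonneg_of_nonneg hc ht)).2
  set e := star z * z + z * star z with he
  have hba' : b * a = 0 := by
    have := congrArg star hab
    rwa [star_mul, star_zero, ha.star_eq, hbs.star_eq] at this
  have hgba : cfc g b * cfc g a = 0 := by
    have h1 : cfc g b * a = 0 := by rw [cfc_mul_of_mul_eq_zero hbs hba' hg, hg0, zero_smul]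
    rw [mul_cfc_of_mul_eq_zero ha h1 hg, hg0, zero_smul]
  have he1 : e ≤ 1 := by
    have hc : Commute (1 - cfc g a) (1 - cfc g b) := by
      refine (Commute.one_left _).sub_left ((Commute.one_right _).sub_right ?_)
      exact (hgab.trans hgba.symm)
    have := Commute.mul_nonneg (hle a ha0) (hle b hb0) hc
    rw [show (1 - cfc g a) * (1 - cfc g b) = 1 - (cfc g a + cfc g b) + cfc g a * cfc g b by
      noncomm_ring, hgab, add_zero, sub_nonneg] at this
    rwa [he, hga, hgb]
  refine ⟨z, parity κ x, ⟨hzz, parity_mem_unitary κ x, ?_, ?_⟩, he1, ?_⟩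
  · have hcs : Commute (parity κ x) (cfc s b) := by
      unfold parity
      exact (cfc_commute_cfc _ _ _).add_left ((cfc_commute_cfc _ _ _).smul_left _)
    rw [hzcut, ← mul_assoc, hcs.eq, mul_assoc, (oddPair_cut hκ hx).left, mul_neg]
  · rw [hzcut, mul_assoc, (oddPair_cut hκ hx).right]
  -- fullness of `(e - 3/4)₊`
  let φ : ℝ → ℝ := fun t => max (t - 3 / 4) 0
  have hφ : Continuous φ := by fun_prop
  set h := cfc φ e with hh
  have hh0 : 0 ≤ h := cfc_nonneg fun t _ => le_max_right _ _
  let π : ℝ → ℝ := fun t => max (t - 2 * κ) 0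
  have hπ : Continuous π := by fun_prop
  set p := cfc π a with hp
  have hp0 : 0 ≤ p := cfc_nonneg fun t _ => le_max_right _ _
  have hps : IsSelfAdjoint p := IsSelfAdjoint.of_nonneg hp0
  have hes : IsSelfAdjoint e :=
    (IsSelfAdjoint.star_mul_self z).add (IsSelfAdjoint.mul_star_self z)
  have hpe : p * e = p := by
    rw [he, mul_add, hga, hgb]
    have h1 : p * cfc g a = p := by
      rw [hp, ← cfc_mul π g a hπ.continuousOn hg.continuousOn]
      refine cfc_congr fun t _ => ?_
      rcases le_total t (2 * κ) with ht | ht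
      · simp [π, max_eq_right (show t - 2 * κ ≤ 0 by linarith)]
      · rw [hg1 t ht, mul_one]
    have h2 : p * b = 0 := by
      rw [hp, cfc_mul_of_mul_eq_zero ha hab hπ,
        show π 0 = 0 by simp [π, max_eq_right (show (0:ℝ) - 2 * κ ≤ 0 by linarith)], zero_smul]
    rw [h1, mul_cfc_of_mul_eq_zero hbs h2 hg, hg0, zero_smul, add_zero]
  have hph : p * h = (1 / 4 : ℝ) • p := by
    rw [hh, mul_cfc_comm hes (IsSelfAdjoint.one B) (by rw [hpe, one_mul]) hφ,
      ← map_one (algebraMap ℝ B), cfc_algebraMap, Algebra.smul_def]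
    norm_num [φ]
  have hhp : h * p = (1 / 4 : ℝ) • p := by
    have := congrArg star hph
    rwa [star_mul, star_smul, star_trivial (1 / 4 : ℝ), hps.star_eq,
      (IsSelfAdjoint.of_nonneg hh0).star_eq] at this
  refine hb h (4 * ‖p‖ + 1) (by positivity) ?_
  have h1 : a - algebraMap ℝ B κ' ≤ p := by
    rw [show κ' = 2 * κ by rw [hκdef]; ring, hp]
    conv_lhs => rw [← cfc_id' ℝ a ha, ← cfc_const (2 * κ) a ha,
      ← cfc_sub (fun t : ℝ => t) (fun _ => 2 * κ) a continuousOn_id continuousOn_const]
    exact cfc_mono (fun t _ => le_max_left _ _) (by fun_prop) hπ.continuousOn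
  refine h1.trans ?_
  have hc : Commute (algebraMap ℝ B ‖p‖ - p) h :=
    Commute.sub_left (Algebra.commutes ‖p‖ h) (hph.trans hhp.symm)
  have h2 := Commute.mul_nonneg (sub_nonneg.2 hps.le_algebraMap_norm_self) hh0 hc
  rw [sub_mul, ← Algebra.smul_def, hph, sub_nonneg] at h2
  have h3 := smul_le_smul_of_nonneg_left h2 (show (0 : ℝ) ≤ 4 by norm_num)
  rw [smul_smul, smul_smul, show (4 : ℝ) * (1 / 4) = 1 by norm_num, one_smul] at h3
  refine h3.trans ?_
  rw [add_smul, one_smul]
  exact le_add_of_nonneg_right hh0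

end Piece

/-- One full square-zero piece. -/
theorem piece_of_orthN (h : OrthNStatement.{u}) : PieceStatement.{u} := by
  intro N δ hδ
  obtain ⟨m, k, hm⟩ := h N N δ hδ
  refine ⟨m + 1, N * k, fun B _ _ _ X hX => ?_⟩
  set T : Set (Fin (m + 1)) := Set.range Fin.succ with hT
  have hd : Disjoint ({0} : Set (Fin (m + 1))) T := by
    rw [Set.disjoint_singleton_left]
    rintro ⟨i, hi⟩
    exact Fin.succ_ne_zero i hi
  obtain ⟨w, hw, hworth, hwk⟩ := hm _ _
    ((hX.comp Fin.succ (Fin.succ_injective m)).codRestrict (gen X T)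
      fun s j => slot_mem_gen (T := T) ⟨s, rfl⟩ j)
  set x := X 0 with hx
  have hxw : ∀ j, ∀ a ∈ gen X T, StarCommute (x j) a := fun j a ha =>
    starCommute_gen hX hd (slot_mem_gen (Set.mem_singleton _) j) ha
  have hxs : ∀ j, ∀ a ∈ gen X T, Commute (star (x j)) a := fun j a ha => by
    simpa using (hxw j a ha).2.star_star
  have hw0 : ∀ i j, i ≠ j → (w i : B) * w j = 0 := fun i j hij =>
    congrArg Subtype.val (hworth i j hij)
  have hws : ∀ j, IsSelfAdjoint (w j : B) := fun j =>
    IsSelfAdjoint.of_nonneg (show (0 : B) ≤ w j from hw j)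
  set z := ∑ j, x j * (w j : B) with hz
  have hzz : z * z = 0 := by
    rw [hz, Finset.sum_mul_sum]
    refine Finset.sum_eq_zero fun i _ => Finset.sum_eq_zero fun j _ => ?_
    rw [mul_assoc, ← mul_assoc (w i : B), ← ((hxw j) _ (w i).2).1.eq, mul_assoc, ← mul_assoc]
    rcases eq_or_ne i j with rfl | hij
    · rw [(hX.fam 0).sq i, zero_mul]
    · rw [hw0 i j hij, mul_zero]
  have hsum : star z * z = ∑ j, star (x j) * x j * ((w j : B) * w j) := by
    rw [hz, star_sum, Finset.sum_mul_sum]
    refine Finset.sum_congr rfl fun i _ => ?_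
    rw [Finset.sum_eq_single i]
    · rw [star_mul, (hws i).star_eq]
      have h1 : Commute (star (x i) * x i) (w i : B) :=
        (hxs i _ (w i).2).mul_left (hxw i _ (w i).2).1
      calc (w i : B) * star (x i) * (x i * w i) = (w i : B) * (star (x i) * x i) * w i := by
            noncomm_ring
        _ = _ := by rw [← h1.eq]; noncomm_ring
    · intro j _ hji
      rw [star_mul, (hws i).star_eq]
      have h1 : Commute (star (x i) * x j) (w i : B) :=
        (hxs i _ (w i).2).mul_left (hxw j _ (w i).2).1
      calc (w i : B) * star (x i) * (x j * w j) = (w i : B) * (star (x i) * x j) * w j := by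
            noncomm_ring
        _ = star (x i) * x j * ((w i : B) * w j) := by rw [← h1.eq]; noncomm_ring
        _ = 0 := by rw [hw0 i j (Ne.symm hji), mul_zero]
    · exact fun h => absurd (Finset.mem_univ i) h
  have hfull : FullBy (N * k) (star z * z) := by
    have hwk' : ∀ j, ∃ c : Fin k → B, (∀ i, c i ∈ gen X T) ∧
        ∑ i, star (c i) * ((w j : B) * w j) * c i = 1 := fun j =>
      ((hwk j).mul_self (IsSelfAdjoint.of_nonneg (hw j))).exists_mem
    choose c hcT hc using hwk'
    refine fullBy_of_algebraMap_le hδ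
      (fun p => c (finProdFinEquiv.symm p).1 (finProdFinEquiv.symm p).2) ?_
    rw [← finProdFinEquiv.sum_comp]
    simp only [Equiv.symm_apply_apply]
    rw [Fintype.sum_prod_type]
    refine (hX.fam 0).bound.trans (Finset.sum_le_sum fun j _ => ?_)
    have hterm : ∀ i, 0 ≤ star (x i) * x i * ((w i : B) * w i) := fun i => by
      have h1 : Commute (star (x i) * x i) (w i : B) :=
        (hxs i _ (w i).2).mul_left (hxw i _ (w i).2).1
      refine Commute.mul_nonneg (star_mul_self_nonneg _) ?_ (h1.mul_right h1)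
      simpa [(hws i).star_eq] using star_mul_self_nonneg (w i : B)
    have hj : star (x j) * x j * ((w j : B) * w j) ≤ star z * z := by
      rw [hsum]
      exact Finset.single_le_sum (fun i _ => hterm i) (Finset.mem_univ j)
    calc star (X 0 j) * X 0 j
        = ∑ i, star (x j) * x j * (star (c j i) * ((w j : B) * w j) * c j i) := by
          rw [← Finset.mul_sum, hc j, mul_one]
      _ ≤ _ := Finset.sum_le_sum fun i _ => by
          have hc1 : Commute (star (x j) * x j) (star (c j i)) :=
            (hxw j _ (hcT j i)).1.star_star.mul_left (hxw j _ (hcT j i)).2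
          refine le_trans (le_of_eq ?_) (star_left_conjugate_le_conjugate hj (c j i))
          rw [← mul_assoc, ← mul_assoc, hc1.eq]
          noncomm_ring
  obtain ⟨z', U, h1, h2, h3⟩ := exists_piece hzz hfull
  exact ⟨z', U, h1, h2, h3⟩

end Vale.Agent.P101

end
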