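import Vale.Agent.P101.Common

/-!
# P101: a C*-algebra without characters has a family of square-zero elements generating it
-/

noncomputable section

namespace Vale.Agent.P101

universe u

variable {F : Type u} [CStarAlgebra F]

/-- The left ideal generated by the square-zero elements. -/
def sqZeroIdeal (F : Type u) [CStarAlgebra F] : Ideal F := Ideal.span {x : F | x * x = 0}

theorem sqZeroIdeal_mul_mem {a : F} (ha : a ∈ sqZeroIdeal F) (b : F) : a * b ∈ sqZeroIdeal F := by
  induction ha using Submodule.span_induction with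
  | mem y hy =>
    have hb : b ∈ Submodule.span ℂ (unitary F : Set F) := by
      rw [CStarAlgebra.span_unitary]; trivial
    induction hb using Submodule.span_induction with
    | mem u hu =>
      have h1 : y * u = u * (star u * y * u) := by
        rw [mul_assoc (star u), ← mul_assoc u, Unitary.mul_star_self_of_mem hu, one_mul]
      have hy' : y * y = 0 := hy
      have h2 : (star u * y * u) * (star u * y * u) = 0 := by
        calc _ = star u * y * (u * star u) * y * u := by noncomm_ring
          _ = star u * (y * y) * u := by rw [Unitary.mul_star_self_of_mem hu]; noncomm_ring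
          _ = 0 := by rw [hy', mul_zero, zero_mul]
      rw [h1]
      exact Ideal.mul_mem_left _ _ (Ideal.subset_span h2)
    | zero => rw [mul_zero]; exact zero_mem _
    | add a b _ _ ha hb => rw [mul_add]; exact add_mem ha hb
    | smul c a _ ha =>
      rw [mul_smul_comm, ← smul_one_mul]
      exact Ideal.mul_mem_left _ _ ha
  | zero => rw [zero_mul]; exact zero_mem _
  | add a b' _ _ ha hb => rw [add_mul]; exact add_mem ha hb
  | smul c a _ ha => rw [smul_eq_mul, mul_assoc]; exact Ideal.mul_mem_left _ _ ha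

/-- A proper two-sided ideal that is maximal with this property and contains all square-zero
elements. -/
structure MaxSq (M : Ideal F) : Prop where
  one_not_mem : (1 : F) ∉ M
  sq_mem : ∀ x : F, x * x = 0 → x ∈ M
  mul_mem : ∀ a ∈ M, ∀ b, a * b ∈ M
  maxl : ∀ J : Ideal F, M ≤ J → (∀ a ∈ J, ∀ b, a * b ∈ J) → (1 : F) ∈ J ∨ J ≤ M

theorem exists_maxSq (h : (1 : F) ∉ sqZeroIdeal F) : ∃ M : Ideal F, MaxSq M := by
  let P : Set (Ideal F) := {J | sqZeroIdeal F ≤ J ∧ (1 : F) ∉ J ∧ ∀ a ∈ J, ∀ b, a * b ∈ J}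
  have hchain : ∀ c ⊆ P, IsChain (· ≤ ·) c → ∀ y ∈ c, ∃ ub ∈ P, ∀ z ∈ c, z ≤ ub := by
    intro c hcP hc y hy
    refine ⟨sSup c, ⟨(hcP hy).1.trans (le_sSup hy), fun h1 => ?_, fun a ha b => ?_⟩,
      fun z hz => le_sSup hz⟩
    · obtain ⟨J, hJ, h1J⟩ := (Submodule.mem_sSup_of_directed ⟨y, hy⟩ hc.directedOn).1 h1
      exact (hcP hJ).2.1 h1J
    · obtain ⟨J, hJ, haJ⟩ := (Submodule.mem_sSup_of_directed ⟨y, hy⟩ hc.directedOn).1 ha
      exact le_sSup hJ ((hcP hJ).2.2 a haJ b)
  obtain ⟨M, -, hM⟩ := zorn_le_nonempty₀ P hchain (sqZeroIdeal F)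
    ⟨le_rfl, h, fun a ha b => sqZeroIdeal_mul_mem ha b⟩
  refine ⟨M, hM.1.2.1, fun x hx => hM.1.1 (Ideal.subset_span hx), hM.1.2.2, fun J hMJ hJ => ?_⟩
  by_cases h1 : (1 : F) ∈ J
  · exact Or.inl h1
  · exact Or.inr (hM.2 ⟨hM.1.1.trans hMJ, h1, hJ⟩ hMJ)

namespace MaxSq

variable {M : Ideal F} (hM : MaxSq M)
include hM

theorem not_isUnit {a : F} (ha : a ∈ M) : ¬IsUnit a := fun ⟨u, hu⟩ =>
  hM.one_not_mem (by simpa [← hu] using M.mul_mem_left (↑u⁻¹ : F) ha)

theorem isClosed : IsClosed (M : Set F) := by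
  rw [← closure_subset_iff_isClosed]
  have hmul : ∀ a ∈ M.closure, ∀ b, a * b ∈ M.closure := fun a ha b =>
    map_mem_closure (f := fun x : F => x * b) (by fun_prop) ha fun x hx => hM.mul_mem x hx b
  rcases hM.maxl M.closure subset_closure hmul with h | h
  · exfalso
    obtain ⟨a, ha, hlt⟩ := Metric.mem_closure_iff.1 h 1 one_pos
    rw [dist_eq_norm] at hlt
    exact hM.not_isUnit ha (by simpa using isUnit_one_sub_of_norm_lt_one hlt)
  · exact h

theorem mem_or_mem {f g : F} (h : ∀ a, f * a * g ∈ M) : f ∈ M ∨ g ∈ M := by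
  let J : Ideal F :=
    { carrier := {a | ∀ c, a * c * g ∈ M}
      add_mem' := fun {a b} ha hb c => by rw [add_mul, add_mul]; exact add_mem (ha c) (hb c)
      zero_mem' := fun c => by rw [zero_mul, zero_mul]; exact zero_mem _
      smul_mem' := fun r a ha c => by
        rw [smul_eq_mul, mul_assoc r, mul_assoc r]; exact M.mul_mem_left r (ha c) }
  rcases hM.maxl J (fun a ha c => hM.mul_mem _ (hM.mul_mem a ha c) g)
      (fun a ha b c => by rw [mul_assoc a b]; exact ha (b * c)) with h1 | h1
  · exact Or.inr (by simpa using h1 1)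
  · exact Or.inl (h1 h)

theorem smul_mem {a : F} (ha : a ∈ M) (c : ℂ) : c • a ∈ M := by
  rw [← smul_one_mul]
  exact M.mul_mem_left _ ha

theorem cfc_mem_or {h : F} (f g : ℝ → ℝ) (hf : Continuous f) (hg : Continuous g)
    (hfg : ∀ t, f t * g t = 0) : cfc f h ∈ M ∨ cfc g h ∈ M := by
  refine hM.mem_or_mem fun a => hM.sq_mem _ ?_
  have h0 : cfc g h * cfc f h = 0 := by
    rw [← cfc_mul g f h hg.continuousOn hf.continuousOn,
      show (fun t => g t * f t) = fun _ : ℝ => (0 : ℝ) from funext fun t => by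
        rw [mul_comm]; exact hfg t, cfc_const_zero]
  calc cfc f h * a * cfc g h * (cfc f h * a * cfc g h)
      = cfc f h * a * (cfc g h * cfc f h) * a * cfc g h := by noncomm_ring
    _ = 0 := by rw [h0]; noncomm_ring

theorem exists_scalar_sa {h : F} (hh : IsSelfAdjoint h) : ∃ r : ℝ, h - algebraMap ℝ F r ∈ M := by
  have hK : IsCompact (spectrum ℝ h) := ContinuousFunctionalCalculus.isCompact_spectrum h
  let Z : Set ℝ := {t | t ∈ spectrum ℝ h ∧ ∀ φ : ℝ → ℝ, Continuous φ → cfc φ h ∈ M → φ t = 0}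
  -- on a compact set missing `Z` some element of `M` is positive
  have hpos : ∀ K ⊆ spectrum ℝ h, IsCompact K → Disjoint K Z →
      ∃ P : ℝ → ℝ, Continuous P ∧ (∀ t, 0 ≤ P t) ∧ (∀ t ∈ K, 0 < P t) ∧ cfc P h ∈ M := by
    intro K hKs hKc hKZ
    have hex : ∀ t : K, ∃ φ : ℝ → ℝ, Continuous φ ∧ cfc φ h ∈ M ∧ φ t ≠ 0 := fun t => by
      have := Set.disjoint_left.1 hKZ t.2
      simp only [Z, Set.mem_ofPred_eq, not_and, not_forall] at this
      obtain ⟨φ, h1, h2, h3⟩ := this (hKs t.2)
      exact ⟨φ, h1, h2, h3⟩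
    choose φ hφc hφM hφt using hex
    obtain ⟨T, hT⟩ := hKc.elim_finite_subcover (fun t : K => {x | φ t x ≠ 0})
      (fun t => isOpen_ne.preimage (hφc t))
      fun x hx => Set.mem_iUnion.2 ⟨⟨x, hx⟩, hφt ⟨x, hx⟩⟩
    refine ⟨fun x => ∑ t ∈ T, φ t x * φ t x, by fun_prop,
      fun x => Finset.sum_nonneg fun t _ => mul_self_nonneg _, fun x hx => ?_, ?_⟩
    · obtain ⟨t, ht, htx⟩ := Set.mem_iUnion₂.1 (hT hx)
      exact Finset.sum_pos' (fun t _ => mul_self_nonneg _)
        ⟨t, ht, mul_self_pos.2 htx⟩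
    · rw [← Finset.sum_fn, cfc_sum (fun t x => φ t x * φ t x) h T (fun t _ => by fun_prop)]
      refine sum_mem fun t _ => ?_
      rw [cfc_mul (φ t) (φ t) h (hφc t).continuousOn (hφc t).continuousOn]
      exact hM.mul_mem _ (hφM t) _
  have hne : Z.Nonempty := by
    by_contra he
    rw [Set.not_nonempty_iff_eq_empty] at he
    obtain ⟨P, hPc, -, hPpos, hPM⟩ := hpos _ subset_rfl hK (by rw [he]; exact Set.disjoint_empty _)
    exact hM.not_isUnit hPM ((isUnit_cfc_iff P h hPc.continuousOn hh).2 fun t ht =>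
      (hPpos t ht).ne')
  obtain ⟨r, hr⟩ := hne
  have huniq : ∀ t ∈ Z, t = r := by
    intro t ht
    by_contra hne
    set d := |t - r| / 2 with hd
    have hd0 : 0 < d := by rw [hd]; have := abs_pos.2 (sub_ne_zero.2 hne); linarith
    have hfg : ∀ x, max (d - |x - t|) 0 * max (d - |x - r|) 0 = 0 := fun x => by
      rcases le_or_gt d |x - t| with h1 | h1
      · rw [max_eq_right (by linarith), zero_mul]
      · have : |t - r| ≤ |x - t| + |x - r| := by
          rw [abs_sub_comm x t]; exact abs_sub_le t x r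
        rw [max_eq_right (show d - |x - r| ≤ 0 by rw [hd] at h1 ⊢; linarith), mul_zero]
    rcases hM.cfc_mem_or (h := h) _ _ (by fun_prop) (by fun_prop) hfg with hc | hc
    · have := ht.2 _ (by fun_prop) hc
      simp [max_eq_left hd0.le] at this
      linarith
    · have := hr.2 _ (by fun_prop) hc
      simp [max_eq_left hd0.le] at this
      linarith
  refine ⟨r, ?_⟩
  have h1 : h - algebraMap ℝ F r = cfc (fun t => t - r) h := by
    rw [cfc_sub (fun t => t) (fun _ => r) h continuousOn_id continuousOn_const, cfc_id' ℝ h hh,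
      cfc_const r h hh]
  rw [h1]
  refine hM.isClosed.closure_subset (Metric.mem_closure_iff.2 fun ε hε => ?_)
  -- approximate `t - r` by a function vanishing near `r`
  let ψ : ℝ → ℝ := fun t => max (t - r - ε / 2) 0 - max (r - t - ε / 2) 0
  let K := spectrum ℝ h ∩ {t | ε / 2 ≤ |t - r|}
  have hKc : IsCompact K := hK.inter_right (isClosed_le continuous_const (by fun_prop))
  have hKd : Disjoint K Z := Set.disjoint_left.2 fun t ht htZ => by
    have := ht.2
    simp only [Set.mem_ofPred_eq] at this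
    rw [huniq t htZ, sub_self, abs_zero] at this
    linarith
  obtain ⟨P, hPc, hP0, hPpos, hPM⟩ := hpos K Set.inter_subset_left hKc hKd
  obtain ⟨c, hc, hcK⟩ : ∃ c : ℝ, 0 < c ∧ ∀ t ∈ K, c ≤ P t := by
    rcases K.eq_empty_or_nonempty with he | he
    · exact ⟨1, one_pos, fun t ht => by rw [he] at ht; exact ht.elim⟩
    · obtain ⟨t₀, ht₀, hmin⟩ := hKc.exists_isMinOn he hPc.continuousOn
      exact ⟨P t₀, hPpos t₀ ht₀, fun t ht => hmin ht⟩
  have hq : Continuous fun t => ψ t / max (P t) c :=
    Continuous.div (by fun_prop) (by fun_prop) fun t => (lt_max_of_lt_right hc).ne'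
  refine ⟨cfc (fun t => P t * (ψ t / max (P t) c)) h, ?_, ?_⟩
  · rw [cfc_mul P _ h hPc.continuousOn hq.continuousOn]
    exact hM.mul_mem _ hPM _
  · rw [dist_eq_norm, ← cfc_sub (fun t => t - r) _ h (by fun_prop) (by fun_prop)]
    refine lt_of_le_of_lt (norm_cfc_le (by positivity) fun t ht => ?_) (half_lt_self hε)
    rw [Real.norm_eq_abs]
    by_cases htK : ε / 2 ≤ |t - r|
    · have hcP := hcK t ⟨ht, htK⟩
      rw [max_eq_left hcP, mul_div_cancel₀ _ (by linarith : P t ≠ 0)]
      simp only [ψ]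
      rcases le_abs.1 htK with h2 | h2
      · rw [max_eq_left (by linarith), max_eq_right (by linarith), abs_le]
        constructor <;> linarith
      · rw [max_eq_right (by linarith), max_eq_left (by linarith), abs_le]
        constructor <;> linarith
    · rw [not_le, abs_lt] at htK
      have h0 : ψ t = 0 := by
        simp only [ψ]
        rw [max_eq_right (by linarith), max_eq_right (by linarith), sub_zero]
      rw [h0, zero_div, mul_zero, sub_zero, abs_le]
      constructor <;> linarith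

theorem exists_scalar (a : F) : ∃ μ : ℂ, a - μ • 1 ∈ M := by
  obtain ⟨r, hr⟩ := hM.exists_scalar_sa (h := (realPart a : F)) (realPart a).2
  obtain ⟨s, hs⟩ := hM.exists_scalar_sa (h := (imaginaryPart a : F)) (imaginaryPart a).2
  refine ⟨(r : ℂ) + Complex.I * s, ?_⟩
  have e : a - ((r : ℂ) + Complex.I * s) • (1 : F) =
      ((realPart a : F) - algebraMap ℝ F r) +
        Complex.I • ((imaginaryPart a : F) - algebraMap ℝ F s) := by
    conv_lhs => rw [← realPart_add_I_smul_imaginaryPart a]
    simp only [Algebra.algebraMap_eq_smul_one, ← Complex.coe_smul, smul_sub, add_smul, smul_smul]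
    abel
  rw [e]
  exact add_mem hr (hM.smul_mem hs _)

theorem scalar_unique {a : F} {μ ν : ℂ} (h1 : a - μ • 1 ∈ M) (h2 : a - ν • 1 ∈ M) : μ = ν := by
  by_contra hne
  have h3 : (μ - ν) • (1 : F) ∈ M := by
    have := sub_mem h2 h1
    rwa [sub_sub_sub_cancel_left, ← sub_smul] at this
  refine hM.one_not_mem ?_
  have := hM.smul_mem h3 (μ - ν)⁻¹
  rwa [smul_smul, inv_mul_cancel₀ (sub_ne_zero.2 hne), one_smul] at this

theorem exists_character : Nonempty (F →⋆ₐ[ℂ] ℂ) := by
  choose χ hχ using hM.exists_scalar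
  have hu : ∀ {a : F} {μ : ℂ}, a - μ • 1 ∈ M → χ a = μ := fun h => hM.scalar_unique (hχ _) h
  refine ⟨{ toFun := χ, map_one' := ?_, map_mul' := ?_, map_zero' := ?_, map_add' := ?_,
            commutes' := ?_, map_star' := ?_ }⟩
  · exact hu (by simp)
  · intro a b
    refine hu ?_
    rw [show a * b - (χ a * χ b) • (1 : F) = (a - χ a • 1) * b + χ a • (b - χ b • 1) by
      rw [sub_mul, smul_one_mul, smul_sub, smul_smul]; abel]
    exact add_mem (hM.mul_mem _ (hχ a) b) (hM.smul_mem (hχ b) _)
  · exact hu (by simp)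
  · intro a b
    refine hu ?_
    rw [add_smul, add_sub_add_comm]
    exact add_mem (hχ a) (hχ b)
  · intro c
    exact hu (by simp [Algebra.algebraMap_eq_smul_one])
  · intro a
    obtain ⟨r, hr⟩ := hM.exists_scalar_sa (h := (realPart a : F)) (realPart a).2
    obtain ⟨s, hs⟩ := hM.exists_scalar_sa (h := (imaginaryPart a : F)) (imaginaryPart a).2
    have e : ∀ (c : ℂ), ((realPart a : F) + c • (imaginaryPart a : F)) -
        ((r : ℂ) + c * s) • (1 : F) = ((realPart a : F) - algebraMap ℝ F r) +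
        c • ((imaginaryPart a : F) - algebraMap ℝ F s) := fun c => by
      simp only [Algebra.algebraMap_eq_smul_one, ← Complex.coe_smul, smul_sub, add_smul, smul_smul]
      abel
    have h1 : χ a = (r : ℂ) + Complex.I * s := by
      refine hu ?_
      rw [show a - ((r : ℂ) + Complex.I * s) • (1 : F) = ((realPart a : F) + Complex.I • (imaginaryPart a : F)) -
        ((r : ℂ) + Complex.I * s) • 1 by rw [realPart_add_I_smul_imaginaryPart a], e]
      exact add_mem hr (hM.smul_mem hs _)
    have h2 : χ (star a) = (r : ℂ) + -Complex.I * s := by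
      refine hu ?_
      rw [show star a = (realPart a : F) + -Complex.I • (imaginaryPart a : F) by
        conv_lhs => rw [← realPart_add_I_smul_imaginaryPart a, star_add, star_smul,
          (realPart a).2.star_eq, (imaginaryPart a).2.star_eq, Complex.star_def, Complex.conj_I],
        e]
      exact add_mem hr (hM.smul_mem hs _)
    show χ (star a) = star (χ a)
    rw [h1, h2]
    simp

end MaxSq

variable [PartialOrder F] [StarOrderedRing F]

/-- **Step A**: without characters, finitely many square-zero contractions have `∑ x* x` bounded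
below. -/
theorem exists_sqZeroFamily (h : IsEmpty (F →⋆ₐ[ℂ] ℂ)) :
    ∃ (N : ℕ) (δ : ℝ) (x : Fin N → F), 0 < δ ∧ SqZeroFamily δ x := by
  have h1 : (1 : F) ∈ sqZeroIdeal F := by
    by_contra hne
    obtain ⟨M, hM⟩ := exists_maxSq hne
    exact h.false hM.exists_character.some
  obtain ⟨N, b, y, hsum⟩ := Submodule.mem_span_set'.1 h1
  simp only [smul_eq_mul] at hsum
  have hy : ∀ i, (y i : F) * y i = 0 := fun i => (y i).2
  let C : ℝ := 1 + (N : ℝ) * ∑ i, ‖b i‖ ^ 2 * max 1 ‖(y i : F)‖ ^ 2
  have hC : 0 < C := by positivity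
  refine ⟨N, C⁻¹, fun i => ((max 1 ‖(y i : F)‖)⁻¹ : ℝ) • (y i : F), inv_pos.2 hC,
    fun i => by simp [smul_mul_assoc, mul_smul_comm, hy i], fun i => ?_, ?_⟩
  · rw [norm_smul, Real.norm_of_nonneg (by positivity),
      inv_mul_le_iff₀ (by positivity), mul_one]
    exact le_max_right _ _
  have hterm : ∀ i, star (b i * (y i : F)) * (b i * (y i : F)) ≤
      (‖b i‖ ^ 2) • (star (y i : F) * y i) := fun i => by
    have hb : star (b i) * b i ≤ algebraMap ℝ F (‖b i‖ ^ 2) := by
      refine (IsSelfAdjoint.star_mul_self (b i)).le_algebraMap_norm_self.trans (algebraMap_mono F ?_)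
      rw [CStarRing.norm_star_mul_self, ← sq]
    calc star (b i * (y i : F)) * (b i * (y i : F))
        = star (y i : F) * (star (b i) * b i) * y i := by simp only [star_mul, mul_assoc]
      _ ≤ star (y i : F) * algebraMap ℝ F (‖b i‖ ^ 2) * y i :=
          star_left_conjugate_le_conjugate hb _
      _ = _ := by
          rw [Algebra.algebraMap_eq_smul_one, mul_smul_comm, smul_mul_assoc, mul_one]
  set x : Fin N → F := fun i => ((max 1 ‖(y i : F)‖)⁻¹ : ℝ) • (y i : F) with hx
  have hyx : ∀ i, star (y i : F) * y i = (max 1 ‖(y i : F)‖ ^ 2) • (star (x i) * x i) := fun i => by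
    simp only [hx, star_smul, star_trivial, smul_mul_assoc, mul_smul_comm, smul_smul]
    rw [show max 1 ‖(y i : F)‖ ^ 2 *
      ((max 1 ‖(y i : F)‖)⁻¹ * (max 1 ‖(y i : F)‖)⁻¹) = 1 by field_simp, one_smul]
  have h2 : (1 : F) ≤ C • ∑ i, star (x i) * x i := by
    calc (1 : F) = star (∑ i, b i * (y i : F)) * ∑ i, b i * (y i : F) := by rw [hsum]; simp
      _ ≤ (N : ℝ) • ∑ i, star (b i * (y i : F)) * (b i * (y i : F)) := star_sum_mul_sum_le _
      _ ≤ (N : ℝ) • ∑ i, (‖b i‖ ^ 2) • (star (y i : F) * y i) :=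
          smul_le_smul_of_nonneg_left (Finset.sum_le_sum fun i _ => hterm i) (by positivity)
      _ ≤ C • ∑ i, star (x i) * x i := by
          rw [Finset.smul_sum, Finset.smul_sum]
          refine Finset.sum_le_sum fun i hi => ?_
          rw [hyx i, smul_smul, smul_smul]
          refine smul_le_smul_of_nonneg_right ?_ (star_mul_self_nonneg _)
          have := Finset.single_le_sum (f := fun j => ‖b j‖ ^ 2 * max 1 ‖(y j : F)‖ ^ 2)
            (fun j _ => by positivity) hi
          simp only [C]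
          nlinarith [show (0 : ℝ) ≤ N from Nat.cast_nonneg N]
  rw [Algebra.algebraMap_eq_smul_one]
  have h3 := smul_le_smul_of_nonneg_left h2 (inv_nonneg.2 hC.le)
  rwa [smul_smul, inv_mul_cancel₀ hC.ne', one_smul] at h3

end Vale.Agent.P101
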