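import Vale.Agent.P101.Seq
import Vale.Agent.P101.NoChar

/-!
# From slots to the final statement
-/

noncomputable section

namespace Vale.Agent.P101

open Filter Topology BoundedContinuousFunction

universe u

/-- Absence of characters gives a square-zero family with invertible sum. -/
def NoCharStatement : Prop :=
  ∀ (B : Type u) [CStarAlgebra B] [PartialOrder B] [StarOrderedRing B],
    IsEmpty (B →⋆ₐ[ℂ] ℂ) →
      ∃ (N : ℕ) (δ : ℝ), 0 < δ ∧ ∃ x : Fin N → B, SqZeroFamily δ x

variable {A : Type u} [CStarAlgebra A] {ω : Filter ℕ}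

local instance centPartialOrder {F : Filter ℕ} : PartialOrder (centSub A F) :=
  CStarAlgebra.spectralOrder _

local instance centStarOrderedRing {F : Filter ℕ} : StarOrderedRing (centSub A F) :=
  CStarAlgebra.spectralOrderedRing _

/-- A star homomorphism on the central sequence algebra is a character on representatives. -/
theorem exists_character_of_hom (φ : centSub A ω →⋆ₐ[ℂ] ℂ) :
    ∃ χ : (ℕ → A) → ℂ, IsCentralCharacter A ω χ := by
  classical
  let rep : ∀ f : ℕ → A, IsCentralSeq A ω f → centSub A ω := fun f h =>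
    ⟨_, (exists_rep_of_isCentralSeq h).choose_spec.2⟩
  let χ : (ℕ → A) → ℂ := fun f => if h : IsCentralSeq A ω f then φ (rep f h) else 0
  have key : ∀ (g : ℕ →ᵇ A) (h : seqMk A ω g ∈ centSub A ω), χ g = φ ⟨_, h⟩ := by
    intro g h
    simp only [χ, dif_pos (isCentralSeq_coe h), rep]
    congr 2
    have := (exists_rep_of_isCentralSeq (isCentralSeq_coe h)).choose_spec.1
    rw [DFunLike.coe_injective this]
  refine ⟨χ, ?_, ?_, ?_, ?_, ?_, ?_⟩
  · have h : seqMk A ω (1 : ℕ →ᵇ A) ∈ centSub A ω := by rw [map_one]; exact one_mem _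
    refine (key 1 h).trans ?_
    rw [show (⟨_, h⟩ : centSub A ω) = 1 from Subtype.ext (map_one _), map_one]
  · intro f g hf hg
    obtain ⟨f, rfl, hf'⟩ := exists_rep_of_isCentralSeq hf
    obtain ⟨g, rfl, hg'⟩ := exists_rep_of_isCentralSeq hg
    have h : seqMk A ω (f + g) ∈ centSub A ω := by rw [map_add]; exact add_mem hf' hg'
    refine (key (f + g) h).trans ?_
    rw [show (⟨_, h⟩ : centSub A ω) = ⟨_, hf'⟩ + ⟨_, hg'⟩ from Subtype.ext (map_add _ _ _), map_add,
      key f hf', key g hg']
  · intro f g hf hg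
    obtain ⟨f, rfl, hf'⟩ := exists_rep_of_isCentralSeq hf
    obtain ⟨g, rfl, hg'⟩ := exists_rep_of_isCentralSeq hg
    have h : seqMk A ω (f * g) ∈ centSub A ω := by rw [map_mul]; exact mul_mem hf' hg'
    refine (key (f * g) h).trans ?_
    rw [show (⟨_, h⟩ : centSub A ω) = ⟨_, hf'⟩ * ⟨_, hg'⟩ from Subtype.ext (map_mul _ _ _), map_mul,
      key f hf', key g hg']
  · intro c f hf
    obtain ⟨f, rfl, hf'⟩ := exists_rep_of_isCentralSeq hf
    have h : seqMk A ω (c • f) ∈ centSub A ω := by rw [map_smul]; exact SMulMemClass.smul_mem c hf'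
    refine (key (c • f) h).trans ?_
    rw [show (⟨_, h⟩ : centSub A ω) = c • ⟨_, hf'⟩ from Subtype.ext (map_smul _ _ _), map_smul,
      key f hf', smul_eq_mul]
  · intro f hf
    obtain ⟨f, rfl, hf'⟩ := exists_rep_of_isCentralSeq hf
    have h : seqMk A ω (star f) ∈ centSub A ω := by rw [map_star]; exact star_mem hf'
    refine (key (star f) h).trans ?_
    rw [show (⟨_, h⟩ : centSub A ω) = star ⟨_, hf'⟩ from Subtype.ext (map_star _ _), map_star,
      key f hf']
  · intro f hf hnull
    obtain ⟨f, rfl, hf'⟩ := exists_rep_of_isCentralSeq hf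
    rw [key f hf', show (⟨_, hf'⟩ : centSub A ω) = 0 from Subtype.ext (seqMk_eq_zero.2 hnull),
      map_zero]

/-- An element of norm at most one is represented by a sequence of contractions. -/
theorem exists_contraction_rep {x : SeqQuot A ω} (hx : ‖x‖ ≤ 1) :
    ∃ g : ℕ →ᵇ A, seqMk A ω g = x ∧ ∀ n, ‖g n‖ ≤ 1 := by
  obtain ⟨f, rfl⟩ := seqMk_surjective x
  let r : ℕ → ℝ := fun n => (max 1 ‖f n‖)⁻¹
  have hr : ∀ n, 0 < r n := fun n => inv_pos.2 (lt_max_of_lt_left one_pos)
  have hb : ∀ n, ‖r n • f n‖ ≤ 1 := fun n => by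
    rw [norm_smul, Real.norm_eq_abs, abs_of_pos (hr n), inv_mul_le_iff₀ (lt_max_of_lt_left one_pos),
      mul_one]
    exact le_max_right _ _
  refine ⟨.ofNormedAddCommGroup _ continuous_of_discreteTopology 1 hb, ?_, hb⟩
  rw [seqMk_eq_iff]
  rw [Metric.tendsto_nhds]
  intro ε hε
  obtain ⟨y, hy, hyn⟩ := Submodule.Quotient.norm_mk_lt (S := nullSeq A ω) (seqMk A ω f) (half_pos hε)
  have hd : seqMk A ω y = seqMk A ω f := hy
  rw [seqMk_eq_iff] at hd
  filter_upwards [hd.eventually (gt_mem_nhds (half_pos hε))] with n hn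
  rw [Real.dist_eq, sub_zero, abs_of_nonneg (norm_nonneg _)]
  show ‖r n • f n - f n‖ < ε
  rw [show r n • f n - f n = (r n - 1) • f n by rw [sub_smul, one_smul], norm_smul,
    Real.norm_eq_abs, abs_of_nonpos (by
      have : r n ≤ 1 := inv_le_one_of_one_le₀ (le_max_left _ _)
      linarith)]
  have h1 : ‖f n‖ < 1 + ε := by
    have := y.norm_coe_le_norm n
    have := norm_le_norm_sub_add (f n) (y n)
    rw [norm_sub_rev] at hn
    linarith
  rcases le_total ‖f n‖ 1 with h | h
  · simp only [r, max_eq_left h]; simp [hε]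
  · simp only [r, max_eq_right h]
    rw [neg_mul, sub_mul, inv_mul_cancel₀ (by linarith)]
    linarith

/-- The pick for one step of the diagonal argument. -/
theorem exists_picks [ω.NeBot] {κ : Type*} [Finite κ] (G : κ → ℕ →ᵇ A)
    (hG : ∀ i, seqMk A ω (G i) ∈ centSub A ω) (P : ℕ → Prop) (hP : ∀ᶠ k in ω, P k)
    (a : ℕ → A) (n : ℕ) {ε : ℝ} (hε : 0 < ε) (m : ℕ) :
    ∃ k : Fin m → ℕ, (∀ s, P (k s)) ∧
      (∀ s i, ∀ p ≤ n, ‖a p * G i (k s) - G i (k s) * a p‖ < ε) ∧
      ∀ s t, t < s → ∀ i l,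
        ‖G l (k t) * G i (k s) - G i (k s) * G l (k t)‖ < ε ∧
        ‖star (G l (k t)) * G i (k s) - G i (k s) * star (G l (k t))‖ < ε := by
  induction m with
  | zero => exact ⟨Fin.elim0, fun s => s.elim0, fun s => s.elim0, fun s => s.elim0⟩
  | succ m ih =>
    obtain ⟨k, hk1, hk2, hk3⟩ := ih
    have hc : ∀ i (b : A), ∀ᶠ j in ω, ‖b * G i j - G i j * b‖ < ε := fun i b =>
      (mem_centSub.1 (hG i) b).eventually (gt_mem_nhds hε)
    have h1 : ∀ᶠ j in ω, ∀ i, ∀ p ∈ Set.Iic n, ‖a p * G i j - G i j * a p‖ < ε :=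
      eventually_all.2 fun i => (Set.finite_Iic n).eventually_all.2 fun p _ => hc i (a p)
    have h2 : ∀ᶠ j in ω, ∀ t : Fin m, ∀ i l,
        ‖G l (k t) * G i j - G i j * G l (k t)‖ < ε ∧
        ‖star (G l (k t)) * G i j - G i j * star (G l (k t))‖ < ε :=
      eventually_all.2 fun t => eventually_all.2 fun i => eventually_all.2 fun l =>
        (hc i _).and (hc i _)
    obtain ⟨j, hj0, hj1, hj2⟩ := (hP.and (h1.and h2)).exists
    refine ⟨Fin.snoc k j, fun s => ?_, fun s i p hp => ?_, fun s t hts i l => ?_⟩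
    · cases s using Fin.lastCases with
      | last => simpa using hj0
      | cast s => simpa using hk1 s
    · cases s using Fin.lastCases with
      | last => simpa using hj1 i p hp
      | cast s => simpa using hk2 s i p hp
    · cases t using Fin.lastCases with
      | last => exact absurd hts (not_lt.2 (Fin.le_last s))
      | cast t => cases s using Fin.lastCases with
        | last => simpa using hj2 t i l
        | cast s => simpa using hk3 s t (Fin.castSucc_lt_castSucc_iff.1 hts) i l

theorem sqrtRep {N : ℕ} {δ : ℝ} {x : Fin N → centSub A ω} (hx : SqZeroFamily δ x) :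
    ∃ c : centSub A ω, ∑ j, star (x j) * x j - algebraMap ℝ (centSub A ω) δ = star c * c :=
  CStarAlgebra.nonneg_iff_eq_star_mul_self.1 (sub_nonneg.2 hx.bound)

/-- Slots in the sequence algebra along `atTop` from a square-zero family along `ω`. -/
theorem exists_slots [TopologicalSpace.SeparableSpace A] [Nonempty A] [ω.NeBot] {N : ℕ} {δ : ℝ}
    {x : Fin N → centSub A ω} (hx : SqZeroFamily δ x) (m : ℕ) :
    ∃ X : Fin m → Fin N → centSub A atTop, IsSlots δ X := by
  classical
  obtain ⟨c, hc⟩ := sqrtRep hx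
  choose g hg hg1 using fun j => exists_contraction_rep (x := (x j : SeqQuot A ω)) (hx.norm_le j)
  obtain ⟨h, hh⟩ := seqMk_surjective (c : SeqQuot A ω)
  let G : Option (Fin N) → ℕ →ᵇ A := fun o => o.elim h g
  have hG : ∀ i, seqMk A ω (G i) ∈ centSub A ω := by
    rintro (_ | j)
    · show seqMk A ω h ∈ _; rw [hh]; exact c.2
    · show seqMk A ω (g j) ∈ _; rw [hg]; exact (x j).2
  let rel : ℕ →ᵇ A := ∑ j, star (g j) * g j - algebraMap ℝ (ℕ →ᵇ A) δ - star h * h
  have hrel : seqMk A ω rel = 0 := by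
    have e := congrArg Subtype.val hc
    simp only [rel, map_sub, map_sum, map_mul, map_star, hg, hh]
    rw [IsScalarTower.algebraMap_apply ℝ ℂ (ℕ →ᵇ A), AlgHomClass.commutes]
    push_cast at e ⊢
    rw [sub_eq_zero]
    exact e
  have hsq : ∀ j, seqMk A ω (g j * g j) = 0 := fun j => by
    rw [map_mul, hg]
    exact congrArg Subtype.val (hx.sq j)
  obtain ⟨a, ha⟩ := TopologicalSpace.exists_dense_seq A
  let η : ℕ → ℝ := fun n => 1 / ((n : ℝ) + 1)
  have hη : ∀ n, 0 < η n := fun n => by positivity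
  have hη0 : Tendsto η atTop (𝓝 0) := tendsto_one_div_add_atTop_nhds_zero_nat
  have hP : ∀ n, ∀ᶠ j in ω, ‖rel j‖ < η n ∧ ∀ i, ‖g i j * g i j‖ < η n := fun n =>
    ((seqMk_eq_zero.1 hrel).eventually (gt_mem_nhds (hη n))).and
      (eventually_all.2 fun i => (seqMk_eq_zero.1 (hsq i)).eventually (gt_mem_nhds (hη n)))
  choose k hk1 hk2 hk3 using fun n => exists_picks G hG _ (hP n) a n (hη n) m
  let κ : Fin m → C(ℕ, ℕ) := fun s => ⟨fun n => k n s, continuous_of_discreteTopology⟩
  have lim : ∀ f : ℕ →ᵇ A, (∀ n, ‖f n‖ ≤ η n) → seqMk A atTop f = 0 := fun f hf =>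
    seqMk_eq_zero.2 (squeeze_zero (fun n => norm_nonneg _) hf hη0)
  have hcent : ∀ s i, seqMk A atTop ((G i).compContinuous (κ s)) ∈ centSub A atTop := by
    intro s i
    rw [mem_centSub]
    intro b
    rw [Metric.tendsto_nhds]
    intro ε hε
    have hM : 0 < ε / (4 * (‖G i‖ + 1)) := by positivity
    obtain ⟨p, hp⟩ := ha.exists_dist_lt b hM
    filter_upwards [eventually_ge_atTop p, hη0.eventually (gt_mem_nhds (half_pos hε))] with n h1 h2
    rw [Real.dist_eq, sub_zero, abs_of_nonneg (norm_nonneg _)]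
    show ‖b * G i (k n s) - G i (k n s) * b‖ < ε
    set z := G i (k n s) with hz
    have hc := hk2 n s i p h1
    have hX : ‖z‖ ≤ ‖G i‖ + 1 := ((G i).norm_coe_le_norm _).trans (by linarith)
    rw [dist_eq_norm] at hp
    have key : b * z - z * b = ((b - a p) * z - z * (b - a p)) + (a p * z - z * a p) := by
      noncomm_ring
    have e1 : ‖(b - a p) * z‖ ≤ ε / (4 * (‖G i‖ + 1)) * (‖G i‖ + 1) :=
      (norm_mul_le _ _).trans (mul_le_mul hp.le hX (norm_nonneg _) hM.le)
    have e2 : ‖z * (b - a p)‖ ≤ ε / (4 * (‖G i‖ + 1)) * (‖G i‖ + 1) := by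
      refine (norm_mul_le _ _).trans ?_
      rw [mul_comm]
      exact mul_le_mul hp.le hX (norm_nonneg _) hM.le
    have e3 := norm_sub_le ((b - a p) * z) (z * (b - a p))
    have hval : ε / (4 * (‖G i‖ + 1)) * (‖G i‖ + 1) = ε / 4 := by field_simp
    rw [key]
    refine (norm_add_le _ _).trans_lt ?_
    linarith
  let X : Fin m → Fin N → centSub A atTop := fun s j => ⟨_, hcent s (some j)⟩
  refine ⟨X, fun s => ⟨fun j => Subtype.ext ?_, fun j => ?_, ?_⟩, fun s t hst i j => ?_⟩
  · show seqMk A atTop ((g j).compContinuous (κ s)) * seqMk A atTop ((g j).compContinuous (κ s)) = 0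
    rw [← map_mul]
    exact lim _ fun n => ((hk1 n s).2 j).le
  · refine (norm_seqMk_le _).trans ?_
    exact (BoundedContinuousFunction.norm_le zero_le_one).2 fun n => hg1 j _
  · rw [← sub_nonneg, CStarAlgebra.nonneg_iff_eq_star_mul_self]
    refine ⟨⟨_, hcent s none⟩, Subtype.ext ?_⟩
    push_cast
    show ∑ j, star (seqMk A atTop ((g j).compContinuous (κ s))) *
        seqMk A atTop ((g j).compContinuous (κ s)) -
          algebraMap ℝ (SeqQuot A atTop) δ = star (seqMk A atTop (h.compContinuous (κ s))) *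
            seqMk A atTop (h.compContinuous (κ s))
    rw [IsScalarTower.algebraMap_apply ℝ ℂ (SeqQuot A atTop), ← AlgHomClass.commutes (seqMk A atTop)]
    simp only [← map_star, ← map_mul, ← map_sum, ← map_sub]
    rw [← sub_eq_zero, ← map_sub]
    refine lim _ fun n => ?_
    have := (hk1 n s).1.le
    convert this using 2
    · rfl
    · simp [rel, κ, BoundedContinuousFunction.coe_sum, Finset.sum_apply]
  · have main : ∀ s t, t < s → ∀ i l,
        Commute (X t l) (X s i) ∧ Commute (star (X t l)) (X s i) := by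
      intro s t hts i l
      refine ⟨Subtype.ext ?_, Subtype.ext ?_⟩
      · show seqMk A atTop ((g l).compContinuous (κ t)) * seqMk A atTop ((g i).compContinuous (κ s))
          = seqMk A atTop ((g i).compContinuous (κ s)) * seqMk A atTop ((g l).compContinuous (κ t))
        rw [← map_mul, ← map_mul, ← sub_eq_zero, ← map_sub]
        exact lim _ fun n => ((hk3 n s t hts (some i) (some l)).1).le
      · show star (seqMk A atTop ((g l).compContinuous (κ t))) *
            seqMk A atTop ((g i).compContinuous (κ s))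
          = seqMk A atTop ((g i).compContinuous (κ s)) *
            star (seqMk A atTop ((g l).compContinuous (κ t)))
        rw [← map_star, ← map_mul, ← map_mul, ← sub_eq_zero, ← map_sub]
        exact lim _ fun n => ((hk3 n s t hts (some i) (some l)).2).le
    rcases lt_or_gt_of_ne hst with h | h
    · exact ⟨(main t s h j i).1, by simpa using ((main t s h j i).2).star_star⟩
    · exact ⟨(main s t h i j).1.symm, (main s t h i j).2.symm⟩

/-- A central dimension drop kills all characters. -/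
theorem no_character_of_dimensionDrop (hω : ω ≤ atTop) (h : HasCentralDimensionDrop A) :
    ¬∃ χ : (ℕ → A) → ℂ, IsCentralCharacter A ω χ := by
  obtain ⟨y, v, hy, hv, h1, h2, h3⟩ := h
  rintro ⟨χ, hχ⟩
  replace hy := hy.mono hω
  replace hv := hv.mono hω
  have hsub : ∀ f g, IsCentralSeq A ω f → IsCentralSeq A ω g → χ (f - g) = χ f - χ g := by
    intro f g hf hg
    have := hχ.map_add (f - g) g (hf.sub hg) hg
    rw [sub_add_cancel] at this
    linear_combination -this
  have hy0 : χ y = 0 := by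
    have := hχ.map_null _ (hy.mul hy) (h1.mono_left hω)
    rw [hχ.map_mul _ _ hy hy] at this
    exact mul_self_eq_zero.1 this
  have a1 : IsCentralSeq A ω (1 - star y * y) := IsCentralSeq.one.sub (hy.star.mul hy)
  have hv1 : star (χ v) * χ v = 1 := by
    have hd : χ (star v * v - (1 - star y * y - y * star y)) = 0 :=
      hχ.map_null _ ((hv.star.mul hv).sub (a1.sub (hy.mul hy.star))) (h2.mono_left hω)
    rw [hsub _ _ (hv.star.mul hv) (a1.sub (hy.mul hy.star)), hsub _ _ a1 (hy.mul hy.star),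
      hsub _ _ IsCentralSeq.one (hy.star.mul hy), hχ.map_one, hχ.map_mul _ _ hv.star hv,
      hχ.map_mul _ _ hy.star hy, hχ.map_mul _ _ hy hy.star, hy0, hχ.map_star _ hv] at hd
    linear_combination hd
  have hv0 : χ v = 0 := by
    have hd : χ (y * star y * v - v) = 0 :=
      hχ.map_null _ (((hy.mul hy.star).mul hv).sub hv) (h3.mono_left hω)
    rw [hsub _ _ ((hy.mul hy.star).mul hv) hv, hχ.map_mul _ _ (hy.mul hy.star) hv,
      hχ.map_mul _ _ hy hy.star, hy0] at hd
    linear_combination -hd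
  rw [hv0] at hv1
  simp at hv1

/-- The final statement follows from the core construction and the character dichotomy. -/
theorem final (hcore : CoreStatement.{u}) (hnc : NoCharStatement.{u}) : FinalStatement.{u} := by
  intro A _ _ _ ω hω
  refine ⟨fun hno => ?_, fun h => no_character_of_dimensionDrop hω h⟩
  have he : IsEmpty (centSub A (ω : Filter ℕ) →⋆ₐ[ℂ] ℂ) :=
    ⟨fun φ => hno (exists_character_of_hom φ)⟩
  obtain ⟨N, δ, hδ, x, hx⟩ := hnc (centSub A (ω : Filter ℕ)) he
  obtain ⟨m, hm⟩ := hcore N δ hδ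
  obtain ⟨X, hX⟩ := exists_slots hx m
  obtain ⟨y, v, hy, hv, hyv⟩ := hm (centSub A (atTop : Filter ℕ)) X hX
  obtain ⟨Y, hY⟩ := seqMk_surjective (y : SeqQuot A atTop)
  obtain ⟨V, hV⟩ := seqMk_surjective (v : SeqQuot A atTop)
  have e1 := congrArg Subtype.val hy
  have e2 := congrArg Subtype.val hv
  have e3 := congrArg Subtype.val hyv
  push_cast at e1 e2 e3
  refine ⟨Y, V, isCentralSeq_coe (hY ▸ y.2), isCentralSeq_coe (hV ▸ v.2), ?_, ?_, ?_⟩
  · refine (seqMk_eq_zero (f := Y * Y)).1 ?_
    rw [map_mul, hY]; exact e1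
  · refine (seqMk_eq_iff (f := star V * V) (g := 1 - star Y * Y - Y * star Y)).1 ?_
    simp only [map_sub, map_mul, map_star, map_one, hY, hV]
    exact e2
  · refine (seqMk_eq_iff (f := Y * star Y * V) (g := V)).1 ?_
    simp only [map_mul, map_star, hY, hV]
    exact e3

theorem noCharStatement : NoCharStatement.{u} := fun _ _ _ _ h => by
  obtain ⟨N, δ, x, hδ, hx⟩ := exists_sqZeroFamily h
  exact ⟨N, δ, hδ, x, hx⟩

/-- The final statement from the core construction alone. -/
theorem final_of_core (hcore : CoreStatement.{u}) : FinalStatement.{u} :=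
  final hcore noCharStatement

end Vale.Agent.P101
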