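import Mathlib

/-!
# P101: shared definitions (see `Vale/Agent/P101/PLAN.md`)

`IsSlots δ X`: finitely many mutually *-commuting slots, each carrying `N` square-zero
contractions with `δ ≤ ∑ x* x`.  All modules prove statements of the shape
∃ m, ∀ B, ∀ m slots in B, some elements of B satisfy ..., and are applied to blocks of
slots inside `gen X T`.
-/

noncomputable section

namespace Vale.Agent.P101

universe u

section
variable {A : Type u} [CStarAlgebra A] [PartialOrder A] [StarOrderedRing A]

/-- `a` and `b` generate commuting *-subalgebras. -/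
def StarCommute (a b : A) : Prop := Commute a b ∧ Commute a (star b)

/-- `N` square-zero contractions with `δ ≤ ∑ x* x`. -/
structure SqZeroFamily {N : ℕ} (δ : ℝ) (x : Fin N → A) : Prop where
  sq : ∀ j, x j * x j = 0
  norm_le : ∀ j, ‖x j‖ ≤ 1
  bound : algebraMap ℝ A δ ≤ ∑ j, star (x j) * x j

/-- A family of mutually *-commuting slots. -/
structure IsSlots {ι : Type*} {N : ℕ} (δ : ℝ) (X : ι → Fin N → A) : Prop where
  fam : ∀ s, SqZeroFamily δ (X s)
  comm : ∀ s t, s ≠ t → ∀ i j, StarCommute (X s i) (X t j)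

/-- The closed *-subalgebra generated by the slots in `T`. -/
def gen {ι : Type*} {N : ℕ} (X : ι → Fin N → A) (T : Set ι) : StarSubalgebra ℂ A :=
  (StarAlgebra.adjoin ℂ {a : A | ∃ s ∈ T, ∃ j, X s j = a}).topologicalClosure

/-- `1` is a sum of `k` conjugates of `a`. -/
def FullBy (k : ℕ) (a : A) : Prop := ∃ c : Fin k → A, ∑ i, star (c i) * a * c i = 1

/-- `a` is algebraically full (for positive `a`: generates no proper ideal). -/
def IsFull (a : A) : Prop := ∃ k, FullBy k a

/-- The fermionic data used for Jordan–Wigner strings: `x² = 0`, `U` unitary, odd for `x`. -/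
structure OddPair (x U : A) : Prop where
  sq : x * x = 0
  unit : U ∈ unitary A
  left : U * x = -x
  right : x * U = x

end

/-- ORTH: two orthogonal full positive elements, with a uniform fullness bound. -/
def OrthStatement : Prop :=
  ∀ (N : ℕ) (δ : ℝ), 0 < δ → ∃ m k : ℕ, ∀ (B : Type u) [CStarAlgebra B] [PartialOrder B]
    [StarOrderedRing B] (X : Fin m → Fin N → B), IsSlots δ X →
      ∃ f g : B, 0 ≤ f ∧ 0 ≤ g ∧ f * g = 0 ∧ FullBy k f ∧ FullBy k g

/-- ORTHN: any number of pairwise orthogonal full positive elements. -/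
def OrthNStatement : Prop :=
  ∀ (N r : ℕ) (δ : ℝ), 0 < δ → ∃ m k : ℕ, ∀ (B : Type u) [CStarAlgebra B] [PartialOrder B]
    [StarOrderedRing B] (X : Fin m → Fin N → B), IsSlots δ X →
      ∃ w : Fin r → B, (∀ j, 0 ≤ w j) ∧ (∀ i j, i ≠ j → w i * w j = 0) ∧ ∀ j, FullBy k (w j)

/-- PIECE: a full square-zero element with its parity unitary and a cut-off fullness bound. -/
def PieceStatement : Prop :=
  ∀ (N : ℕ) (δ : ℝ), 0 < δ → ∃ m k : ℕ, ∀ (B : Type u) [CStarAlgebra B] [PartialOrder B]
    [StarOrderedRing B] (X : Fin m → Fin N → B), IsSlots δ X →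
      ∃ z U : B, OddPair z U ∧ star z * z + z * star z ≤ 1 ∧
        FullBy k (cfc (fun t : ℝ => max (t - 3 / 4) 0) (star z * z + z * star z))

/-- COLOURS: `N` colours of (weighted) `2^n`-matrix units whose squared weights sum to an
invertible element. -/
def ColourStatement : Prop :=
  ∀ (N n : ℕ) (δ : ℝ), 0 < δ → ∃ m : ℕ, ∀ (B : Type u) [CStarAlgebra B] [PartialOrder B]
    [StarOrderedRing B] (X : Fin m → Fin N → B), IsSlots δ X →
      ∃ (E : Fin N → Fin (2 ^ n) → Fin (2 ^ n) → B) (Q : Fin N → B),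
        (∀ j a b, star (E j a b) = E j b a) ∧
        (∀ j a b c, E j a b * E j b c = Q j * E j a c) ∧
        (∀ j a b c d, b ≠ c → E j a b * E j c d = 0) ∧
        (∀ j, ∑ a, E j a a = Q j) ∧
        IsUnit (∑ j, Q j * Q j)

/-- CORE: generators of a unital image of the dimension-drop algebra `Z_{2,3}`. -/
def CoreStatement : Prop :=
  ∀ (N : ℕ) (δ : ℝ), 0 < δ → ∃ m : ℕ, ∀ (B : Type u) [CStarAlgebra B] [PartialOrder B]
    [StarOrderedRing B] (X : Fin m → Fin N → B), IsSlots δ X →
      ∃ y v : B, y * y = 0 ∧ star v * v = 1 - star y * y - y * star y ∧ y * star y * v = v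

section
variable (A : Type u) [CStarAlgebra A]

/-- A bounded sequence in `A` that is central along the filter `F`. -/
def IsCentralSeq (F : Filter ℕ) (f : ℕ → A) : Prop :=
  (∃ C, ∀ n, ‖f n‖ ≤ C) ∧ ∀ a : A, Filter.Tendsto (fun n => ‖a * f n - f n * a‖) F (nhds 0)

/-- `χ` is a character of the central sequence algebra along `F`, read on representatives. -/
structure IsCentralCharacter (F : Filter ℕ) (χ : (ℕ → A) → ℂ) : Prop where
  map_one : χ 1 = 1
  map_add : ∀ f g, IsCentralSeq A F f → IsCentralSeq A F g → χ (f + g) = χ f + χ g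
  map_mul : ∀ f g, IsCentralSeq A F f → IsCentralSeq A F g → χ (f * g) = χ f * χ g
  map_smul : ∀ (c : ℂ) f, IsCentralSeq A F f → χ (c • f) = c * χ f
  map_star : ∀ f, IsCentralSeq A F f → χ (star f) = star (χ f)
  map_null : ∀ f, IsCentralSeq A F f →
    Filter.Tendsto (fun n => ‖f n‖) F (nhds 0) → χ f = 0

/-- Approximately central approximate generators of a unital `Z_{2,3}`. -/
def HasCentralDimensionDrop : Prop :=
  ∃ y v : ℕ → A, IsCentralSeq A Filter.atTop y ∧ IsCentralSeq A Filter.atTop v ∧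
    Filter.Tendsto (fun n => ‖y n * y n‖) Filter.atTop (nhds 0) ∧
    Filter.Tendsto (fun n => ‖star (v n) * v n - (1 - star (y n) * y n - y n * star (y n))‖)
      Filter.atTop (nhds 0) ∧
    Filter.Tendsto (fun n => ‖y n * star (y n) * v n - v n‖) Filter.atTop (nhds 0)

end

/-- The final theorem. -/
def FinalStatement : Prop :=
  ∀ (A : Type u) [CStarAlgebra A] [Nontrivial A] [TopologicalSpace.SeparableSpace A]
    (ω : Ultrafilter ℕ), (ω : Filter ℕ) ≤ Filter.atTop →
      ((¬ ∃ χ : (ℕ → A) → ℂ, IsCentralCharacter A ω χ) ↔ HasCentralDimensionDrop A)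

end Vale.Agent.P101
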