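import Vale.Agent.P101.Quotient
import Vale.Agent.P101.Defs

/-!
# Bounded sequences modulo null sequences along a filter, and the central ones
-/

noncomputable section

namespace Vale.Agent.P101

open Filter Topology BoundedContinuousFunction

universe u

variable (A : Type u) [CStarAlgebra A] (F : Filter ℕ)

/-- Bounded sequences whose norms tend to zero along `F`. -/
def nullSeq : Ideal (ℕ →ᵇ A) where
  carrier := {f | Tendsto (fun n => ‖f n‖) F (𝓝 0)}
  zero_mem' := by simp [tendsto_const_nhds]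
  add_mem' {f g} hf hg := by
    refine squeeze_zero (fun n => norm_nonneg _) (fun n => norm_add_le (f n) (g n)) ?_
    simpa using hf.add hg
  smul_mem' c f hf := by
    refine squeeze_zero (fun n => norm_nonneg _)
      (fun n => (norm_mul_le (c n) (f n)).trans
        (mul_le_mul_of_nonneg_right (c.norm_coe_le_norm n) (norm_nonneg _))) ?_
    simpa using hf.const_mul ‖c‖

theorem mem_nullSeq {f : ℕ →ᵇ A} : f ∈ nullSeq A F ↔ Tendsto (fun n => ‖f n‖) F (𝓝 0) := Iff.rfl

instance nullSeq.isTwoSided : (nullSeq A F).IsTwoSided where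
  mul_mem_of_left {f} c hf := by
    refine squeeze_zero (fun n => norm_nonneg _)
      (fun n => (norm_mul_le (f n) (c n)).trans
        (mul_le_mul_of_nonneg_left (c.norm_coe_le_norm n) (norm_nonneg _))) ?_
    simpa using (show Tendsto (fun n => ‖f n‖) F (𝓝 0) from hf).mul_const ‖c‖

instance nullSeq.isClosed : IsClosed (nullSeq A F : Set (ℕ →ᵇ A)) := by
  rw [← closure_subset_iff_isClosed]
  intro f hf
  show Tendsto (fun n => ‖f n‖) F (𝓝 0)
  rw [Metric.tendsto_nhds]
  intro ε hε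
  obtain ⟨g, hg, hfg⟩ := Metric.mem_closure_iff.1 hf (ε / 2) (half_pos hε)
  filter_upwards [(Metric.tendsto_nhds.1 (show Tendsto (fun n => ‖g n‖) F (𝓝 0) from hg))
    (ε / 2) (half_pos hε)] with n hn
  rw [Real.dist_eq, sub_zero, abs_of_nonneg (norm_nonneg _)] at hn ⊢
  have h1 : ‖f n - g n‖ ≤ ‖f - g‖ := (f - g).norm_coe_le_norm n
  have h2 : ‖f n‖ ≤ ‖f n - g n‖ + ‖g n‖ := norm_le_norm_sub_add _ _
  rw [dist_eq_norm] at hfg
  linarith

/-- Bounded sequences modulo null sequences. -/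
abbrev SeqQuot : Type u := (ℕ →ᵇ A) ⧸ nullSeq A F

/-- The quotient map. -/
def seqMk : (ℕ →ᵇ A) →⋆ₐ[ℂ] SeqQuot A F := quotStar (nullSeq A F)

variable {A F}

theorem seqMk_eq_iff {f g : ℕ →ᵇ A} :
    seqMk A F f = seqMk A F g ↔ Tendsto (fun n => ‖f n - g n‖) F (𝓝 0) := by
  rw [← sub_eq_zero, ← map_sub]
  exact quotStar_eq_zero (nullSeq A F)

theorem seqMk_eq_zero {f : ℕ →ᵇ A} : seqMk A F f = 0 ↔ Tendsto (fun n => ‖f n‖) F (𝓝 0) :=
  quotStar_eq_zero (nullSeq A F)

theorem seqMk_surjective : Function.Surjective (seqMk A F) := quotStar_surjective _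

theorem norm_seqMk_le (f : ℕ →ᵇ A) : ‖seqMk A F f‖ ≤ ‖f‖ := Submodule.Quotient.norm_mk_le _ f

variable (A F)

/-- The central part: the relative commutant of the constants. -/
def centSub : StarSubalgebra ℂ (SeqQuot A F) :=
  StarSubalgebra.centralizer ℂ
    (Set.range fun a => seqMk A F (BoundedContinuousFunction.const ℕ a))

variable {A F}

theorem mem_centSub {f : ℕ →ᵇ A} :
    seqMk A F f ∈ centSub A F ↔ ∀ a, Tendsto (fun n => ‖a * f n - f n * a‖) F (𝓝 0) := by
  rw [centSub, StarSubalgebra.mem_centralizer_iff]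
  constructor
  · intro h a
    have h1 := (h _ ⟨a, rfl⟩).1
    rw [← map_mul, ← map_mul, seqMk_eq_iff] at h1
    exact h1
  · rintro h - ⟨a, rfl⟩
    refine ⟨?_, ?_⟩
    · rw [← map_mul, ← map_mul, seqMk_eq_iff]
      exact h a
    · rw [← map_star, ← map_mul, ← map_mul, seqMk_eq_iff]
      exact h (star a)

instance centSub.isClosed : IsClosed (centSub A F : Set (SeqQuot A F)) := by
  rw [centSub, StarSubalgebra.coe_centralizer]
  exact Set.isClosed_centralizer _

instance centSub.instCStarAlgebra : CStarAlgebra (centSub A F) := StarSubalgebra.cstarAlgebra _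

/-- The spectral order of the central algebra. -/
@[reducible]
def centOrder : PartialOrder (centSub A F) := CStarAlgebra.spectralOrder _

theorem isCentralSeq_coe {f : ℕ →ᵇ A} (hf : seqMk A F f ∈ centSub A F) : IsCentralSeq A F f :=
  ⟨⟨‖f‖, f.norm_coe_le_norm⟩, mem_centSub.1 hf⟩

theorem exists_rep_of_isCentralSeq {f : ℕ → A} (hf : IsCentralSeq A F f) :
    ∃ g : ℕ →ᵇ A, ⇑g = f ∧ seqMk A F g ∈ centSub A F := by
  obtain ⟨⟨C, hC⟩, hc⟩ := hf
  exact ⟨.ofNormedAddCommGroup f continuous_of_discreteTopology C hC, rfl, mem_centSub.2 hc⟩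

theorem IsCentralSeq.mono {G : Filter ℕ} (h : G ≤ F) {f : ℕ → A} (hf : IsCentralSeq A F f) :
    IsCentralSeq A G f :=
  ⟨hf.1, fun a => (hf.2 a).mono_left h⟩

theorem IsCentralSeq.mul {f g : ℕ → A} (hf : IsCentralSeq A F f) (hg : IsCentralSeq A F g) :
    IsCentralSeq A F (f * g) := by
  obtain ⟨f, rfl, hf'⟩ := exists_rep_of_isCentralSeq hf
  obtain ⟨g, rfl, hg'⟩ := exists_rep_of_isCentralSeq hg
  exact isCentralSeq_coe (f := f * g) (by rw [map_mul]; exact mul_mem hf' hg')

theorem IsCentralSeq.sub {f g : ℕ → A} (hf : IsCentralSeq A F f) (hg : IsCentralSeq A F g) :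
    IsCentralSeq A F (f - g) := by
  obtain ⟨f, rfl, hf'⟩ := exists_rep_of_isCentralSeq hf
  obtain ⟨g, rfl, hg'⟩ := exists_rep_of_isCentralSeq hg
  exact isCentralSeq_coe (f := f - g) (by rw [map_sub]; exact sub_mem hf' hg')

theorem IsCentralSeq.star {f : ℕ → A} (hf : IsCentralSeq A F f) :
    IsCentralSeq A F (star f) := by
  obtain ⟨f, rfl, hf'⟩ := exists_rep_of_isCentralSeq hf
  exact isCentralSeq_coe (f := Star.star f) (by rw [map_star]; exact star_mem hf')

theorem IsCentralSeq.one : IsCentralSeq A F 1 := by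
  exact isCentralSeq_coe (f := 1) (by rw [map_one]; exact one_mem _)

end Vale.Agent.P101
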